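import Vale.Agent.P366.H896.L.X1b

/-! Metrics `η + V l ⊗ l` with `l` null and geodesic: the superpotential on `l` and the isometry
with the flat metric. -/

open MeasureTheory Metric Filter Topology Set
open scoped ContDiff

noncomputable section
namespace Vale.Agent.P366.H896
open Vale.Agent.P366.Stmt Vale.Agent.P366.T2

variable {m : ℕ}

namespace KLg

variable {e : Fin m → ℝ} {g : Field m} {l : Fin m → E m → ℝ} {V : E m → ℝ} {U : Set (E m)}
  (h : KLg e g l V U)
include h

/-- `U^{ac}_b l_c = V θ k^a l_b / 2` -/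
theorem UL_l {x : E m} (hx : x ∈ U) (a b : Fin m) : ∑ c, UL e l V a c b x * l c x =
    V x * lth e l x * (e a * l a x) * l b x / 2 := by
  have h2 : ∀ c, ∑ d, e c * e d * pd d (hl l V c d) x = e c * (lph e l V x * l c x) := by
    intro c
    rw [← h.div_hl hx c, Finset.mul_sum]
    exact Finset.sum_congr rfl fun d _ => by ring
  have e1 : ∀ c, UL e l V a c b x * l c x =
      (e a / 2) * (pd a V x * l b x + V x * pd a (l b) x) * (e c * (l c x * l c x)) +
      (e a / 2) * (V x * l b x) * (e c * (l c x * pd a (l c) x)) -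
      (e a / 2) * (l a x * l b x) * (e c * (l c x * pd c V x)) -
      (e a / 2) * (V x * l b x) * (e c * (l c x * pd c (l a) x)) -
      (e a / 2) * (V x * l a x) * (e c * (l c x * pd c (l b) x)) -
      ((if a = b then 1 else 0) / 2 * lph e l V x) * (e c * (l c x * l c x)) +
      (if c = b then e a * (lph e l V x * l a x) / 2 * l b x else 0) := by
    intro c
    unfold UL
    rw [h2, h2, (h.hp_hl hx a c b).pd, (h.hp_hl hx c a b).pd]
    by_cases hcb : c = b
    · subst hcb
      simp only [if_true]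
      split_ifs <;> ring
    · simp only [if_neg hcb]
      split_ifs <;> ring
  simp only [e1, Finset.sum_add_distrib, Finset.sum_sub_distrib, ← Finset.mul_sum, h.null x hx,
    h.null1 hx, h.geo x hx, Finset.sum_ite_eq', Finset.mem_univ, if_true]
  unfold lph lk
  ring

/-- the superpotential on the pair of covectors `nu, mm` with `l = ζ (nu + τ mm)` -/
theorem UL_pair {x : E m} (hx : x ∈ U) {nu mm : Fin m → ℝ} {z τ : ℝ} (hz : z ≠ 0) (hτ : τ ≠ 0)
    (hw : ∀ a, l a x = z * (nu a + τ * mm a)) (hn : ∑ a, nu a * (e a * l a x) = - (z * τ))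
    (b : Fin m) : ∑ a, ∑ c, UL e l V a c b x * nu a * mm c =
      - (V x * lth e l x * l b x / 2) := by
  have h0 : ∑ a, ∑ c, UL e l V a c b x * nu a * nu c = 0 := by
    have h1 : ∑ a, ∑ c, UL e l V a c b x * nu a * nu c =
        - ∑ a, ∑ c, UL e l V a c b x * nu a * nu c := by
      conv_lhs => rw [Finset.sum_comm]
      rw [← Finset.sum_neg_distrib]
      refine Finset.sum_congr rfl fun a _ => ?_
      rw [← Finset.sum_neg_distrib]
      exact Finset.sum_congr rfl fun c _ => by rw [UL_anti e l V a c b x]; ring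
    linarith
  have h1 : ∑ a, ∑ c, UL e l V a c b x * nu a * l c x =
      z * τ * ∑ a, ∑ c, UL e l V a c b x * nu a * mm c := by
    have e1 : ∀ a c, UL e l V a c b x * nu a * l c x = z * (UL e l V a c b x * nu a * nu c) +
        z * τ * (UL e l V a c b x * nu a * mm c) := by
      intro a c; rw [hw c]; ring
    simp only [e1, Finset.sum_add_distrib, ← Finset.mul_sum, h0]
    ring
  have h2 : ∑ a, ∑ c, UL e l V a c b x * nu a * l c x =
      V x * lth e l x * l b x / 2 * ∑ a, nu a * (e a * l a x) := by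
    rw [Finset.mul_sum]
    refine Finset.sum_congr rfl fun a _ => ?_
    have e1 : ∑ c, UL e l V a c b x * nu a * l c x =
        nu a * ∑ c, UL e l V a c b x * l c x := by
      rw [Finset.mul_sum]; exact Finset.sum_congr rfl fun c _ => by ring
    rw [e1, h.UL_l hx a b]
    ring
  have h3 : z * τ * (∑ a, ∑ c, UL e l V a c b x * nu a * mm c) =
      z * τ * (- (V x * lth e l x * l b x / 2)) := by
    rw [← h1, h2, hn]; ring
  exact mul_left_cancel₀ (mul_ne_zero hz hτ) h3

/-- `e_a G^a_b` in terms of `G_{ab}` -/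
lemma eM_eq {x : E m} (hx : x ∈ U) (a b : Fin m) : e a * einM g a b x = ein g a b x -
    V x * ((lr e l V x - scal g x) / 2) * (l a x * l b x) := by
  unfold einM
  have e1 : ∀ d, up g a d x * ein g d b x = (if a = d then e a * ein g a b x else 0) -
      (V x * (e a * l a x)) * ((e d * l d x) * ein g d b x) := by
    intro d
    rw [h.up_eq hx (h.null x hx)]
    split_ifs with hd
    · subst hd; ring
    · ring
  simp only [e1, Finset.sum_sub_distrib, Finset.sum_ite_eq, Finset.mem_univ, if_true,
    ← Finset.mul_sum, h.ein_k hx]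
  linear_combination (ein g a b x - V x * l a x * ((lr e l V x - scal g x) / 2 * l b x)) * h.he a

/-- `l_c G^c_b = α l_b` -/
lemma l_einM {x : E m} (hx : x ∈ U) (b : Fin m) : ∑ c, l c x * einM g c b x =
    (lr e l V x - scal g x) / 2 * l b x := by
  rw [← h.ein_k hx b]
  unfold einM
  have e1 : ∀ c, l c x * ∑ d, up g c d x * ein g d b x =
      ∑ d, (l c x * up g c d x) * ein g d b x := by
    intro c; rw [Finset.mul_sum]; exact Finset.sum_congr rfl fun d _ => by ring
  simp only [e1]
  rw [Finset.sum_comm]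
  refine Finset.sum_congr rfl fun d _ => ?_
  rw [← Finset.sum_mul]
  congr 1
  have e2 : ∀ c, l c x * up g c d x = (if c = d then e d * l d x else 0) -
      (V x * (e d * l d x)) * (e c * (l c x * l c x)) := by
    intro c
    rw [h.up_eq hx (h.null x hx)]
    split_ifs with hcd
    · subst hcd; ring
    · ring
  simp only [e2, Finset.sum_sub_distrib, Finset.sum_ite_eq', Finset.mem_univ, if_true,
    ← Finset.mul_sum, h.null x hx]
  ring

/-- the map `φ X = X - (V/2) l(X) k` -/
def phi (e : Fin m → ℝ) (l : Fin m → E m → ℝ) (V : E m → ℝ) (x : E m) (X : Fin m → ℝ)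
    (a : Fin m) : ℝ := X a - V x / 2 * (∑ c, l c x * X c) * (e a * l a x)

omit h in
lemma sum2_phi (e : Fin m → ℝ) (l : Fin m → E m → ℝ) (V : E m → ℝ) (x : E m)
    (B : Fin m → Fin m → ℝ)
    (X Y : Fin m → ℝ) : ∑ a, ∑ b, B a b * phi e l V x X a * phi e l V x Y b =
      ∑ a, ∑ b, B a b * X a * Y b -
      V x / 2 * (∑ c, l c x * X c) * (∑ b, (∑ a, (e a * l a x) * B a b) * Y b) -
      V x / 2 * (∑ c, l c x * Y c) * (∑ a, (∑ b, B a b * (e b * l b x)) * X a) +
      (V x / 2) ^ 2 * (∑ c, l c x * X c) * (∑ c, l c x * Y c) *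
        (∑ b, (∑ a, (e a * l a x) * B a b) * (e b * l b x)) := by
  have e1 : ∑ a, ∑ b, B a b * phi e l V x X a * phi e l V x Y b =
      ∑ a, ∑ b, (B a b * X a * Y b -
        V x / 2 * (∑ c, l c x * X c) * (((e a * l a x) * B a b) * Y b) -
        V x / 2 * (∑ c, l c x * Y c) * ((B a b * (e b * l b x)) * X a) +
        (V x / 2) ^ 2 * (∑ c, l c x * X c) * (∑ c, l c x * Y c) *
          (((e a * l a x) * B a b) * (e b * l b x))) :=
    Finset.sum_congr rfl fun a _ => Finset.sum_congr rfl fun b _ => by unfold phi; ring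
  rw [e1]
  simp only [Finset.sum_add_distrib, Finset.sum_sub_distrib]
  have e2 : ∑ b, (∑ a, (e a * l a x) * B a b) * Y b =
      ∑ a, ∑ b, ((e a * l a x) * B a b) * Y b := by
    rw [Finset.sum_comm]; exact Finset.sum_congr rfl fun b _ => Finset.sum_mul _ _ _
  have e3 : ∑ a, (∑ b, B a b * (e b * l b x)) * X a =
      ∑ a, ∑ b, (B a b * (e b * l b x)) * X a :=
    Finset.sum_congr rfl fun a _ => Finset.sum_mul _ _ _
  have e4 : ∑ b, (∑ a, (e a * l a x) * B a b) * (e b * l b x) =
      ∑ a, ∑ b, ((e a * l a x) * B a b) * (e b * l b x) := by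
    rw [Finset.sum_comm]; exact Finset.sum_congr rfl fun b _ => Finset.sum_mul _ _ _
  rw [e2, e3, e4]
  simp only [Finset.mul_sum]

lemma l_phi {x : E m} (hx : x ∈ U) (X : Fin m → ℝ) :
    ∑ a, l a x * phi e l V x X a = ∑ a, l a x * X a := by
  have e1 : ∀ a, l a x * phi e l V x X a = l a x * X a -
      V x / 2 * (∑ c, l c x * X c) * (e a * (l a x * l a x)) := by
    intro a; unfold phi; ring
  simp only [e1, Finset.sum_sub_distrib, ← Finset.mul_sum, h.null x hx, mul_zero, sub_zero]

/-- **The isometry trick, metric.** -/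
theorem g_phi {x : E m} (hx : x ∈ U) (X Y : Fin m → ℝ) :
    ∑ a, ∑ b, g x a b * phi e l V x X a * phi e l V x Y b = ∑ a, e a * (X a * Y a) := by
  have hgs : ∀ a b, g x a b = g x b a := h.g_symm hx
  have k1 : ∀ b, ∑ a, (e a * l a x) * g x a b = l b x := h.g_k hx
  have k2 : ∀ a, ∑ b, g x a b * (e b * l b x) = l a x := by
    intro a
    rw [← h.g_k hx a]
    exact Finset.sum_congr rfl fun b _ => by rw [hgs a b]; ring
  have k3 : ∑ b, l b x * (e b * l b x) = 0 := by
    rw [← h.null x hx]; exact Finset.sum_congr rfl fun b _ => by ring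
  rw [sum2_phi]
  simp only [k1, k2, k3]
  have e1 : ∀ a, ∑ b, g x a b * X a * Y b = e a * (X a * Y a) +
      V x * (l a x * X a) * ∑ b, l b x * Y b := by
    intro a
    have e2 : ∀ b, g x a b * X a * Y b = (if a = b then e a * (X a * Y a) else 0) +
        V x * (l a x * X a) * (l b x * Y b) := by
      intro b
      rw [h.hg x hx]
      split_ifs with hab
      · subst hab; ring
      · ring
    simp only [e2, Finset.sum_add_distrib, Finset.sum_ite_eq, Finset.mem_univ, if_true,
      ← Finset.mul_sum]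
  simp only [e1, Finset.sum_add_distrib, ← Finset.sum_mul, ← Finset.mul_sum]
  ring

/-- **The isometry trick, Einstein tensor.** -/
theorem ein_phi {x : E m} (hx : x ∈ U) (X Y : Fin m → ℝ) :
    ∑ a, ∑ b, ein g a b x * phi e l V x X a * phi e l V x Y b =
      ∑ a, ∑ b, e a * einM g a b x * X a * Y b := by
  set α := (lr e l V x - scal g x) / 2 with hα
  have k1 : ∀ b, ∑ a, (e a * l a x) * ein g a b x = α * l b x := h.ein_k hx
  have k2 : ∀ a, ∑ b, ein g a b x * (e b * l b x) = α * l a x := by
    intro a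
    rw [← k1 a]
    exact Finset.sum_congr rfl fun b _ => by rw [h.ein_symm hx a b]; ring
  have k3 : ∑ b, α * l b x * (e b * l b x) = 0 := by
    have : ∑ b, α * l b x * (e b * l b x) = α * ∑ b, e b * (l b x * l b x) := by
      rw [Finset.mul_sum]; exact Finset.sum_congr rfl fun b _ => by ring
    rw [this, h.null x hx, mul_zero]
  rw [sum2_phi (B := fun a b => ein g a b x)]
  simp only [k1, k2, k3]
  have e1 : ∀ a b, e a * einM g a b x * X a * Y b = ein g a b x * X a * Y b -
      V x * α * (l a x * X a) * (l b x * Y b) := by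
    intro a b; rw [h.eM_eq hx a b, hα]; ring
  have e2 : ∑ b, α * l b x * Y b = α * ∑ b, l b x * Y b := by
    rw [Finset.mul_sum]; exact Finset.sum_congr rfl fun b _ => by ring
  have e3 : ∑ a, α * l a x * X a = α * ∑ a, l a x * X a := by
    rw [Finset.mul_sum]; exact Finset.sum_congr rfl fun b _ => by ring
  rw [e2, e3]
  simp only [e1, Finset.sum_sub_distrib, ← Finset.mul_sum, ← Finset.sum_mul]
  ring

end KLg

end Vale.Agent.P366.H896
end
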