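import Vale.Agent.P366.H208.L.Int
import Vale.Agent.P366.H896.L.X1c
import Vale.Agent.P366.H896.W.Gr

/-! Round 2: the leaves V1, V2, V3 for `Vale.Agent.P366.Kerr.IsKS`. -/

open MeasureTheory Metric Filter Topology Set
open scoped ContDiff ENNReal

noncomputable section
namespace Vale.Agent.P366.KSL

open Vale.Agent.P366 (pd E)
open Vale.Agent.P366.H353.N
open Vale.Agent.P366.H896
open Vale.Agent.P366.Kerr (NullCone Psi pt sp indG indK sgn ksL ein IsKS FutTimelike DECatL IsGraph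
  IsSliceL HasDEC)
open Vale.Agent.P366.KSN (stmt_pd stmt_pd2)
open Vale.Agent.P366.KSN.X5 (cdd cd_pd)

variable {n : ℕ} {l : Fin (n + 1) → E (n + 1) → ℝ} {V : E (n + 1) → ℝ} {p : E (n + 1)}

lemma sgn_sq8 (a : Fin (n + 1)) : sgn a * sgn a = 1 := by unfold sgn; split_ifs <;> norm_num

lemma toKLg (hK : IsKSg l V p) {P : E (n + 1) → Prop} (hP : ∀ᶠ q in 𝓝 p, P q) :
    ∃ U, p ∈ U ∧ KLg sgn (ksL l V) l V U ∧ ∀ q ∈ U, P q := by
  have h1 : ∀ᶠ q in 𝓝 p, ContDiffAt ℝ ((5 : ℕ) : WithTop ℕ∞) V q :=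
    (hK.smV.of_le (KSN.X1.nat_le_smooth 5)).eventually (by simp)
  have h2 : ∀ᶠ q in 𝓝 p, ∀ a, ContDiffAt ℝ ((5 : ℕ) : WithTop ℕ∞) (l a) q :=
    Filter.eventually_all.2 fun a =>
      ((hK.sml a).of_le (KSN.X1.nat_le_smooth 5)).eventually (by simp)
  obtain ⟨U, hU, hUo, hpU⟩ := _root_.eventually_nhds_iff.1
    (((h1.and h2).and (hK.null.and hK.geod)).and hP)
  refine ⟨U, hpU, ⟨⟨hUo, sgn_sq8, fun a z hz => (hU z hz).1.1.2 a, fun z hz => (hU z hz).1.1.1,
    fun z _ a b => ?_⟩, fun z hz => ?_, fun z hz a => ?_⟩, fun z hz => (hU z hz).2⟩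
  · unfold ksL; ring
  · rw [← (hU z hz).1.2.1]
    exact Finset.sum_congr rfl fun a _ => by ring
  · rw [← (hU z hz).1.2.2 a]
    exact Finset.sum_congr rfl fun a _ => by ring

lemma toKLg' (hK : IsKSg l V p) : ∃ U, p ∈ U ∧ KLg sgn (ksL l V) l V U := by
  obtain ⟨U, h1, h2, -⟩ := toKLg hK (P := fun _ => True) (Eventually.of_forall fun _ => trivial)
  exact ⟨U, h1, h2⟩

/-- [V1] -/
theorem up_ks (hK : IsKSg l V p) (a b : Fin (n + 1)) :
    Stmt.up (ksL l V) a b p = kd a b * sgn a - V p * (sgn a * l a p) * (sgn b * l b p) := by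
  obtain ⟨U, hp, hU⟩ := toKLg' hK
  rw [hU.up_eq hp (hU.null p hp)]
  unfold kd
  split_ifs <;> ring

lemma hh_eq8 (l : Fin (n + 1) → E (n + 1) → ℝ) (V : E (n + 1) → ℝ) (a b : Fin (n + 1)) :
    hh l V a b = hl l V a b := by
  funext q; unfold hh hl; ring

lemma Up_eq {U : Set (E (n + 1))} (hU : KLg sgn (ksL l V) l V U) {q : E (n + 1)} (hq : q ∈ U)
    (a c b : Fin (n + 1)) : Up l V a c b q = UL sgn l V a c b q := by
  have h1 : ∀ a b c, pd c (hh l V a b) q = Stmt.pd c (hl l V a b) q := by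
    intro a b c
    rw [hh_eq8, stmt_pd ((hU.shl0 a b).diff hq)]
  unfold Up UL
  simp only [h1, kd]
  split_ifs <;> ring

lemma Up_diff {U : Set (E (n + 1))} (hU : KLg sgn (ksL l V) l V U) {q : E (n + 1)} (hq : q ∈ U)
    (a c b : Fin (n + 1)) : DifferentiableAt ℝ (Up l V a c b) q := by
  refine (hU.UL_diff hq a c b).congr_of_eventuallyEq ?_
  filter_upwards [hU.op.mem_nhds hq] with z hz using Up_eq hU hz a c b

lemma Up_pd {U : Set (E (n + 1))} (hU : KLg sgn (ksL l V) l V U) {q : E (n + 1)} (hq : q ∈ U)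
    (a c b d : Fin (n + 1)) : pd d (Up l V a c b) q = Stmt.pd d (UL sgn l V a c b) q := by
  rw [stmt_pd (hU.UL_diff hq a c b)]
  have h1 : Up l V a c b =ᶠ[𝓝 q] UL sgn l V a c b := by
    filter_upwards [hU.op.mem_nhds hq] with z hz using Up_eq hU hz a c b
  unfold Vale.Agent.P366.pd
  rw [h1.fderiv_eq]

lemma Gm_eq (l : Fin (n + 1) → E (n + 1) → ℝ) (V : E (n + 1) → ℝ) (a b : Fin (n + 1))
    (p : E (n + 1)) : Gm l V a b p = einM (ksL l V) a b p := by
  unfold Gm einM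
  exact Finset.sum_congr rfl fun c _ => by rw [KSN.X1.ein_eq]

/-- [V1] -/
theorem mixed (hK : IsKSg l V p) (a b : Fin (n + 1)) :
    Gm l V a b p = ∑ c, pd c (Up l V a c b) p := by
  obtain ⟨U, hp, hU⟩ := toKLg' hK
  rw [Gm_eq, hU.superpot hp]
  exact Finset.sum_congr rfl fun c _ => (Up_pd hU hp a c b c).symm

/-- [V1] -/
theorem eigen (hK : IsKSg l V p) : ∃ α : ℝ,
    (∀ b, ∑ a, sgn a * l a p * Kerr.ein (ksL l V) a b p = α * l b p) ∧
    (∀ a, ∑ b, Kerr.ein (ksL l V) a b p * (sgn b * l b p) = α * l a p) := by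
  obtain ⟨U, hp, hU⟩ := toKLg' hK
  refine ⟨(lr sgn l V p - Stmt.scal (ksL l V) p) / 2, fun b => ?_, fun a => ?_⟩
  · rw [← hU.ein_k hp b]
    exact Finset.sum_congr rfl fun c _ => by rw [KSN.X1.ein_eq]
  · rw [← hU.ein_k hp a]
    exact Finset.sum_congr rfl fun c _ => by rw [KSN.X1.ein_eq, hU.ein_symm hp a c]; ring

/-- [V2] -/
theorem posT (hK : IsKSg l V p) (hD : DECatL (ksL l V) l p) {X ξ : Fin (n + 1) → ℝ}
    (hX : ∑ i : Fin n, X i.succ ^ 2 ≤ X 0 ^ 2) (hX0 : 0 ≤ X 0)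
    (hξ : ∑ i : Fin n, ξ i.succ ^ 2 ≤ ξ 0 ^ 2) (hξ0 : 0 ≤ ξ 0) :
    0 ≤ ∑ a, ∑ b, sgn a * X a * Gm l V a b p * ξ b := by
  obtain ⟨U, hp, hU⟩ := toKLg' hK
  have s0 : sgn (0 : Fin (n + 1)) = -1 := rfl
  have ss : ∀ i : Fin n, sgn i.succ = 1 := fun i => by simp [sgn, Fin.succ_ne_zero]
  set wt := l 0 p with hwt
  have hw : 0 < wt := hK.fut
  have hnul : ∑ i : Fin n, l i.succ p ^ 2 = wt ^ 2 := by
    have h1 := hU.null p hp
    rw [Fin.sum_univ_succ] at h1
    simp only [s0, ss, one_mul, ← sq] at h1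
    linarith
  -- `l(X) ≥ 0` for future causal `X`
  have hwX : ∀ X : Fin (n + 1) → ℝ, ∑ i : Fin n, X i.succ ^ 2 ≤ X 0 ^ 2 → 0 ≤ X 0 →
      0 ≤ ∑ a, l a p * X a := by
    intro X hX hX0
    rw [Fin.sum_univ_succ]
    have h1 := Finset.sum_mul_sq_le_sq_mul_sq Finset.univ (fun i : Fin n => l i.succ p)
      (fun i => X i.succ)
    rw [hnul] at h1
    have h2 : (∑ i : Fin n, l i.succ p * X i.succ) ^ 2 ≤ (wt * X 0) ^ 2 := by
      calc _ ≤ wt ^ 2 * ∑ i : Fin n, X i.succ ^ 2 := h1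
        _ ≤ wt ^ 2 * X 0 ^ 2 := mul_le_mul_of_nonneg_left hX (sq_nonneg _)
        _ = _ := by ring
    have h3 := abs_le_of_sq_le_sq h2 (mul_nonneg hw.le hX0)
    linarith [(abs_le.1 h3).1]
  -- `X + t ∂_t` is mapped by `φ` to a future timelike vector
  have hF : ∀ X : Fin (n + 1) → ℝ, ∑ i : Fin n, X i.succ ^ 2 ≤ X 0 ^ 2 → 0 ≤ X 0 → ∀ t : ℝ,
      0 < t → FutTimelike (ksL l V) l p (KLg.phi sgn l V p
        (fun a => X a + t * (if a = 0 then 1 else 0))) := by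
    intro X hX hX0 t ht
    constructor
    · rw [hU.g_phi hp, Fin.sum_univ_succ]
      simp only [s0, ss, if_true, Fin.succ_ne_zero, if_false, mul_zero, add_zero,
        one_mul, mul_one, ← sq]
      nlinarith [mul_nonneg ht.le hX0, sq_nonneg t, mul_pos ht ht]
    · rw [hU.l_phi hp]
      have h1 : ∑ a, l a p * (X a + t * (if a = 0 then 1 else 0)) =
          ∑ a, l a p * X a + t * wt := by
        have : ∀ a, l a p * (X a + t * (if a = 0 then 1 else 0)) =
            l a p * X a + (if a = 0 then t * wt else 0) := by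
          intro a
          split_ifs with ha
          · subst ha; rw [hwt]; ring
          · ring
        simp only [this, Finset.sum_add_distrib, Finset.sum_ite_eq', Finset.mem_univ, if_true]
      rw [h1]
      have := hwX X hX hX0
      have := mul_pos ht hw
      linarith
  set N : Fin (n + 1) → ℝ := fun a => if a = 0 then 1 else 0 with hN
  set T : Fin (n + 1) → Fin (n + 1) → ℝ := fun a b => sgn a * einM (ksL l V) a b p with hTdef
  have key : ∀ t : ℝ, 0 < t → 0 ≤ KSN.X1.Bf T X ξ + t * (KSN.X1.Bf T X N + KSN.X1.Bf T N ξ) +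
      t ^ 2 * KSN.X1.Bf T N N := by
    intro t ht
    rw [← KSN.X1.Bf_lin]
    have h1 := hD _ _ (hF X hX hX0 t ht) (hF ξ hξ hξ0 t ht)
    have h2 := hU.ein_phi hp (fun a => X a + t * (if a = 0 then 1 else 0))
      (fun a => ξ a + t * (if a = 0 then 1 else 0))
    have h3 : ∑ i, ∑ j, Kerr.ein (ksL l V) i j p * KLg.phi sgn l V p
        (fun a => X a + t * (if a = 0 then 1 else 0)) i * KLg.phi sgn l V p
        (fun a => ξ a + t * (if a = 0 then 1 else 0)) j =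
        ∑ i, ∑ j, H896.ein (ksL l V) i j p * KLg.phi sgn l V p
        (fun a => X a + t * (if a = 0 then 1 else 0)) i * KLg.phi sgn l V p
        (fun a => ξ a + t * (if a = 0 then 1 else 0)) j :=
      Finset.sum_congr rfl fun i _ => Finset.sum_congr rfl fun j _ => by rw [KSN.X1.ein_eq]
    rw [h3, h2] at h1
    exact h1
  have h4 := KSN.X1.lim_nonneg key
  have h5 : ∑ a, ∑ b, sgn a * X a * Gm l V a b p * ξ b = KSN.X1.Bf T X ξ := by
    unfold KSN.X1.Bf
    refine Finset.sum_congr rfl fun a _ => Finset.sum_congr rfl fun b _ => ?_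
    rw [Gm_eq, hTdef]; ring
  rw [h5]
  exact h4

/-! ### the flux field of a hypersurface -/

variable {C : NullCone n} {f : E n → ℝ} {D : Stmt.Exterior n} {y : E n}

lemma hh_smooth (hK : IsKS l V p) (a b : Fin (n + 1)) : ContDiffAt ℝ ∞ (hh l V a b) p :=
  (hK.smV.mul (hK.sml a)).mul (hK.sml b)

lemma Up_smooth (hK : IsKS l V p) (a c b : Fin (n + 1)) : ContDiffAt ℝ ∞ (Up l V a c b) p := by
  have h1 : ∀ a b c, ContDiffAt ℝ ∞ (pd c (hh l V a b)) p := fun a b c =>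
    cd_pd (hh_smooth hK a b) c
  have h2 : ∀ c, ContDiffAt ℝ ∞ (fun q => ∑ d, sgn c * sgn d * pd d (hh l V c d) q) p := fun c =>
    ContDiffAt.sum fun d _ => contDiffAt_const.mul (h1 c d d)
  have h3 : ContDiffAt ℝ ∞ (fun q => (sgn a * sgn c * pd a (hh l V c b) q -
      sgn a * sgn c * pd c (hh l V a b) q - kd a b * (∑ d, sgn c * sgn d * pd d (hh l V c d) q) +
      kd c b * (∑ d, sgn a * sgn d * pd d (hh l V a d) q)) * (1 / 2)) p :=
    ((((contDiffAt_const.mul (h1 c b a)).sub (contDiffAt_const.mul (h1 a b c))).sub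
      (contDiffAt_const.mul (h2 c))).add (contDiffAt_const.mul (h2 a))).mul contDiffAt_const
  refine h3.congr_of_eventuallyEq (Eventually.of_forall fun q => ?_)
  unfold Up; ring

lemma gr_smooth (hf : ContDiffAt ℝ ∞ f y) : ContDiffAt ℝ ∞ (fun z => pt (f z) z) y := by
  have h1 : (fun z => pt (f z) z) = fun z => pt 0 z + f z •
      (EuclideanSpace.single (0 : Fin (n + 1)) (1 : ℝ) : E (n + 1)) := by
    funext z; exact KSN.Gr.pt_lin (f z) z
  rw [h1]
  exact (KSN.X5.pt_contDiff 0).contDiffAt.add (hf.smul contDiffAt_const)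

/-- [V3] -/
theorem Z_smooth (hG : IsGraph C l V f D) (hy : 0 ≤ D.F y) (b : Fin (n + 1)) (i : Fin n) :
    ContDiffAt ℝ ∞ (Zf l V f b i) y := by
  have h1 : ∀ a c, ContDiffAt ℝ ∞ (fun z => Up l V a c b (pt (f z) z)) y := fun a c =>
    ContDiffAt.comp (g := Up l V a c b) (f := fun z => pt (f z) z) y
      (Up_smooth (hG.ks y hy) a c b) (gr_smooth (hG.smf y hy))
  exact (h1 0 i.succ).sub (ContDiffAt.sum fun j _ => (cd_pd (hG.smf y hy) j).mul (h1 j.succ i.succ))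

lemma Up_anti (l : Fin (n + 1) → E (n + 1) → ℝ) (V : E (n + 1) → ℝ) (a c b : Fin (n + 1))
    (q : E (n + 1)) : Up l V a c b q = - Up l V c a b q := by
  unfold Up; ring

/-- [V3] -/
theorem div_Z (hG : IsGraph C l V f D) (hy : 0 ≤ D.F y) (hK : IsKSg l V (pt (f y) y))
    (b : Fin (n + 1)) :
    ∑ i, pd i (Zf l V f b i) y =
      Gm l V 0 b (pt (f y) y) - ∑ j : Fin n, pd j f y * Gm l V j.succ b (pt (f y) y) := by
  have h1 := (KSN.Gr.div_graph (W := fun a c => Up l V a c b) (fun a c q => Up_anti l V a c b q)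
    (hG.smf y hy) (fun a c => cdd (Up_smooth (hG.ks y hy) a c b))).2
  simp only [mixed hK]
  exact h1

end Vale.Agent.P366.KSL
end
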