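import Vale.Agent.P366.H896.L.Glue
import Vale.Agent.P366.H375.N.X2e
import Vale.Agent.P366.H381.NH0

/-! Round 2: the boundary term V5 for `Vale.Agent.P366.Kerr.IsKS`. -/

open MeasureTheory Metric Filter Topology Set
open scoped ContDiff ENNReal

noncomputable section
namespace Vale.Agent.P366.KSL

open Vale.Agent.P366 (pd E)
open Vale.Agent.P366.H353.N
open Vale.Agent.P366.H896
open Vale.Agent.P366.Kerr (NullCone Psi pt sp indG indK sgn ksL ein IsKS FutTimelike DECatL IsGraph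
  IsSliceL HasDEC)
open Vale.Agent.P366.KSN (stmt_pd stmt_pd2 Y dts sg Ms Ws dts_pos Ms_mul_x Ms_symm posU' smH smU homH
  homU Ws_x Ws_x' Ws_symm)
open Vale.Agent.P366.KSN.X5 (cdd cd_pd)
open Vale.Agent.P366.KSN.X2 (sgm sgi pd_sgi sgm_cd sgm_one sm_sgi)

variable {n : ℕ} {C : NullCone n} {l : Fin (n + 1) → E (n + 1) → ℝ} {V : E (n + 1) → ℝ}
  {f : E n → ℝ} {D : Stmt.Exterior n} {p : E (n + 1)} {x y : E n}

/-- chain rule in coordinates -/
lemma pd_comp {m : ℕ} {Φ : E n → E m} {F : E m → ℝ} {x : E n} (hF : DifferentiableAt ℝ F (Φ x))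
    (hΦ : ∀ a, DifferentiableAt ℝ (fun z => Φ z a) x) (k : Fin n) :
    pd k (fun z => F (Φ z)) x = ∑ a, pd k (fun z => Φ z a) x * pd a F (Φ x) := by
  have hΦ' : DifferentiableAt ℝ Φ x := differentiableAt_euclidean.2 hΦ
  have h := hF.hasFDerivAt.comp x hΦ'.hasFDerivAt
  unfold Vale.Agent.P366.pd
  rw [show (fun z => F (Φ z)) = F ∘ Φ from rfl, h.fderiv, ContinuousLinearMap.comp_apply,
    Vale.Agent.P366.fderiv_eq_sum_pd]
  refine Finset.sum_congr rfl fun i _ => ?_
  have h3 : HasFDerivAt (fun y => Φ y i)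
      ((EuclideanSpace.proj (𝕜 := ℝ) i : E m →L[ℝ] ℝ).comp (fderiv ℝ Φ x)) x :=
    (EuclideanSpace.proj (𝕜 := ℝ) i : E m →L[ℝ] ℝ).hasFDerivAt.comp x hΦ'.hasFDerivAt
  rw [h3.fderiv]
  rfl

/-- the point of the boundary surface in the direction `z` -/
lemma bdr_pt (C : NullCone n) {z : E n} (hz : z ≠ 0) : ∃ z' : E n, z' ≠ 0 ∧ ‖z'‖ = C.U z' ∧
    C.U z' = C.U z ∧ Psi C.H z' = sgm C z ∧ ∀ i, z' i / ‖z'‖ = z i / ‖z‖ := by
  have hn : 0 < ‖z‖ := norm_pos_iff.2 hz
  have hU := C.pos z hz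
  have hr : 0 < C.U z / ‖z‖ := div_pos hU hn
  have hz' : (C.U z / ‖z‖) • z ≠ 0 := smul_ne_zero hr.ne' hz
  have hn' : ‖(C.U z / ‖z‖) • z‖ = C.U z := by
    rw [norm_smul, Real.norm_eq_abs, abs_of_pos hr, div_mul_cancel₀ _ hn.ne']
  have hU' : C.U ((C.U z / ‖z‖) • z) = C.U z := by
    rw [homU C z hz _ hr]
    simp
  have e : Psi C.H ((C.U z / ‖z‖) • z) = sgm C z := by
    ext i
    have h1 : pd i C.H ((C.U z / ‖z‖) • z) = pd i C.H z := by
      rw [((homH C).pd (smH C) i) z hz _ hr]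
      simp
    have h0 : Stmt.pd i C.H ((C.U z / ‖z‖) • z) = pd i C.H ((C.U z / ‖z‖) • z) :=
      stmt_pd ((smH C).diff hz') i
    simp only [Psi, sgm, sgi, PiLp.smul_apply, smul_eq_mul]
    first
    | rw [h1]
    | rw [h0, h1]
    ring
  refine ⟨_, hz', by rw [hn', hU'], hU', e, fun i => ?_⟩
  rw [hn']
  simp only [PiLp.smul_apply, smul_eq_mul]
  field_simp

lemma f_sgm (hG : IsGraph C l V f D) {z : E n} (hz : z ≠ 0) : f (sgm C z) = - C.U z := by
  obtain ⟨z', h0, h1, h2, h3, -⟩ := bdr_pt C hz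
  rw [← h3, hG.bdr z' h0 h1.symm.symm, h2]

lemma l_sgm (nor : ∀ x, x ≠ 0 → ‖x‖ = C.U x → ∀ i : Fin n,
      l i.succ (pt (- C.U x) (Psi C.H x)) = l 0 (pt (- C.U x) (Psi C.H x)) * (x i / ‖x‖))
    {z : E n} (hz : z ≠ 0) (i : Fin n) : l i.succ (pt (- C.U z) (sgm C z)) =
      l 0 (pt (- C.U z) (sgm C z)) * (z i / ‖z‖) := by
  obtain ⟨z', h0, h1, h2, h3, h4⟩ := bdr_pt C hz
  have h5 := nor z' h0 h1 i
  rw [h2, h3, h4] at h5
  exact h5

/-- the derivative of `z ↦ (- U z, S z)` -/
lemma pd_bp (C : NullCone n) {F : E (n + 1) → ℝ} (hx : ‖x‖ = 1)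
    (hF : DifferentiableAt ℝ F (pt (- C.U x) (sgm C x))) (k : Fin n) :
    pd k (fun z => F (pt (- C.U z) (sgm C z))) x =
      - pd k C.U x * pd 0 F (pt (- C.U x) (sgm C x)) +
        ∑ j, (Ws C.H (C.U x) x k j + x j * pd k C.U x) *
          pd j.succ F (pt (- C.U x) (sgm C x)) := by
  have hx0 := ne_zero_of_one hx
  have h0 : (fun z : E n => pt (- C.U z) (sgm C z) 0) = fun z => - C.U z := rfl
  have hs : ∀ i : Fin n, (fun z : E n => pt (- C.U z) (sgm C z) i.succ) = sgi C i := fun _ => rfl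
  have hd : ∀ a, DifferentiableAt ℝ (fun z : E n => pt (- C.U z) (sgm C z) a) x := by
    intro a
    refine Fin.cases ?_ (fun i => ?_) a
    · rw [h0]; exact ((smU C).diff hx0).neg
    · rw [hs]; exact (sm_sgi C i).diff hx0
  rw [pd_comp (Φ := fun z => pt (- C.U z) (sgm C z)) hF hd k, Fin.sum_univ_succ, h0, pd_neg']
  congr 1
  refine Finset.sum_congr rfl fun j _ => ?_
  rw [hs, pd_sgi C hx]
  congr 1
  unfold Ws pr
  ring

lemma f_first (hG : IsGraph C l V f D) (hy : 0 ≤ D.F (Y C.H x (C.U x))) (hx : ‖x‖ = 1)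
    (k : Fin n) : ∑ j, (Ws C.H (C.U x) x k j + x j * pd k C.U x) * pd j f (Y C.H x (C.U x)) =
      - pd k C.U x := by
  have hx0 := ne_zero_of_one hx
  have hfd : DifferentiableAt ℝ f (sgm C x) := by
    rw [sgm_one C hx]; exact cdd (hG.smf _ hy)
  have hs : ∀ i : Fin n, (fun z : E n => sgm C z i) = sgi C i := fun _ => rfl
  have h1 := pd_comp (Φ := sgm C) hfd (fun i => by rw [hs]; exact (sm_sgi C i).diff hx0) k
  have h2 : pd k (fun z => f (sgm C z)) x = - pd k C.U x := by
    rw [pd_congr' (f := fun z => - C.U z) (fun z hz => f_sgm hG hz) hx0 k, pd_neg']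
  rw [← h2, h1]
  refine Finset.sum_congr rfl fun j _ => ?_
  rw [hs, pd_sgi C hx, sgm_one C hx]
  congr 1
  unfold Ws pr
  ring

lemma M_eq (C : NullCone n) (hx : ‖x‖ = 1) : C.toDat.M x = Ms C.H (C.U x) x := by
  ext i j
  show ‖x‖ * hs C.H i j x + C.U x * (kd i j - x i * x j / ‖x‖ ^ 2) + x i * x j / ‖x‖ ^ 2 = _
  unfold Ms Ws pr
  rw [Matrix.of_apply, hx]
  ring

lemma b_eq (C : NullCone n) (hx : ‖x‖ = 1) :
    C.toDat.b x = (Ms C.H (C.U x) x)⁻¹.mulVec fun j => pd j C.U x := by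
  ext i
  show ∑ j, (C.toDat.M x)⁻¹ i j * (‖x‖ * pd j C.U x) = _
  rw [M_eq C hx, hx]
  simp only [one_mul]
  rfl

/-- the differential of `f` on the boundary surface -/
theorem pd_f_bdr (hG : IsGraph C l V f D) (hy : 0 ≤ D.F (Y C.H x (C.U x))) (hx : ‖x‖ = 1)
    (i : Fin n) : pd i f (Y C.H x (C.U x)) =
      (∑ j, x j * pd j f (Y C.H x (C.U x))) * x i -
        (1 + ∑ j, x j * pd j f (Y C.H x (C.U x))) * C.toDat.b x i := by
  set F : Fin n → ℝ := fun j => pd j f (Y C.H x (C.U x)) with hF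
  set t := ∑ j, x j * F j with ht
  set M := Ms C.H (C.U x) x with hM
  set u : Fin n → ℝ := fun j => pd j C.U x with hu
  have hd : IsUnit M.det := (dts_pos C hx le_rfl).ne'.isUnit
  have hMx : M.mulVec x = x := by
    funext j
    exact Ms_mul_x C hx j
  have hMx' : M⁻¹.mulVec x = x := by
    conv_lhs => rw [← hMx]
    rw [Matrix.mulVec_mulVec, Matrix.nonsing_inv_mul _ hd, Matrix.one_mulVec]
  have h1 : M.mulVec F = t • (x : Fin n → ℝ) - (1 + t) • u := by
    funext k
    have h2 := f_first hG hy hx k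
    simp only [add_mul, Finset.sum_add_distrib] at h2
    have h3 : ∑ j, x j * pd k C.U x * pd j f (Y C.H x (C.U x)) = pd k C.U x * t := by
      rw [ht, Finset.mul_sum]
      exact Finset.sum_congr rfl fun j _ => by rw [hF]; ring
    rw [h3] at h2
    have h4 : M.mulVec F k = ∑ j, Ws C.H (C.U x) x k j * pd j f (Y C.H x (C.U x)) + x k * t := by
      have h5 : M.mulVec F k = ∑ j, M k j * F j := rfl
      rw [h5, ht, Finset.mul_sum, ← Finset.sum_add_distrib]
      refine Finset.sum_congr rfl fun j _ => ?_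
      rw [hM, hF]; unfold Ms; rw [Matrix.of_apply]; ring
    rw [h4]
    simp only [Pi.sub_apply, Pi.smul_apply, smul_eq_mul, hu]
    linarith
  have h2 : F = t • (x : Fin n → ℝ) - (1 + t) • C.toDat.b x := by
    have h3 : M⁻¹.mulVec (M.mulVec F) = F := by
      rw [Matrix.mulVec_mulVec, Matrix.nonsing_inv_mul _ hd, Matrix.one_mulVec]
    rw [← h3, h1, Matrix.mulVec_sub, Matrix.mulVec_smul, Matrix.mulVec_smul, hMx', b_eq C hx]
  exact congrFun h2 i

/-- **the expansion of the congruence on the boundary surface** -/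
theorem theta_bdr (hK : IsKSg l V (pt (- C.U x) (Y C.H x (C.U x))))
    (nor : ∀ x, x ≠ 0 → ‖x‖ = C.U x → ∀ i : Fin n,
      l i.succ (pt (- C.U x) (Psi C.H x)) = l 0 (pt (- C.U x) (Psi C.H x)) * (x i / ‖x‖))
    (hx : ‖x‖ = 1) : dts C.H (C.U x) x * lth sgn l (pt (- C.U x) (Y C.H x (C.U x))) =
      l 0 (pt (- C.U x) (Y C.H x (C.U x))) * sg C.H (C.U x) x := by
  have hx0 := ne_zero_of_one hx
  have hsgm := sgm_one C hx
  set q := pt (- C.U x) (Y C.H x (C.U x)) with hq
  set ζ := l 0 q with hζ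
  obtain ⟨U, hqU, hU⟩ := toKLg' hK
  have s0 : sgn (0 : Fin (n + 1)) = -1 := rfl
  have ss : ∀ i : Fin n, sgn i.succ = 1 := fun i => by simp [sgn, Fin.succ_ne_zero]
  have hld : ∀ a, DifferentiableAt ℝ (l a) q := fun a => cdd (hK.sml a)
  have hspd : ∀ a b, Stmt.pd a (l b) q = pd a (l b) q := fun a b => stmt_pd (hld b) a
  have hζp : 0 < ζ := hK.fut
  have hlx : ∀ i : Fin n, l i.succ q = ζ * x i := by
    intro i
    have h1 := l_sgm nor hx0 i
    rw [hsgm, hx, div_one] at h1
    exact h1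
  -- geodesic: `∑ x_j ∂_j l_a = ∂_0 l_a`
  have geo : ∀ a, ∑ j : Fin n, x j * pd j.succ (l a) q = pd 0 (l a) q := by
    intro a
    have h1 := hU.geo q hqU a
    rw [Fin.sum_univ_succ] at h1
    simp only [s0, ss, one_mul, hspd, hlx] at h1
    have h2 : ∑ j : Fin n, ζ * x j * pd j.succ (l a) q =
        ζ * ∑ j : Fin n, x j * pd j.succ (l a) q := by
      rw [Finset.mul_sum]; exact Finset.sum_congr rfl fun j _ => by ring
    rw [h2] at h1
    have h3 : ζ * (∑ j : Fin n, x j * pd j.succ (l a) q - pd 0 (l a) q) = 0 := by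
      rw [hζ] at h1 ⊢; linarith
    have := (mul_eq_zero.1 h3).resolve_left hζp.ne'
    linarith
  -- null: `∑ x_i ∂_b l_i = ∂_b l_0`
  have nul : ∀ b, ∑ i : Fin n, x i * pd b (l i.succ) q = pd b (l 0) q := by
    intro b
    have h1 := hU.null1 hqU b
    rw [Fin.sum_univ_succ] at h1
    simp only [s0, ss, one_mul, hspd, hlx] at h1
    have h2 : ∑ j : Fin n, ζ * x j * pd b (l j.succ) q =
        ζ * ∑ j : Fin n, x j * pd b (l j.succ) q := by
      rw [Finset.mul_sum]; exact Finset.sum_congr rfl fun j _ => by ring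
    rw [h2] at h1
    have h3 : ζ * (∑ j : Fin n, x j * pd b (l j.succ) q - pd b (l 0) q) = 0 := by
      rw [hζ] at h1 ⊢; linarith
    have := (mul_eq_zero.1 h3).resolve_left hζp.ne'
    linarith
  -- derivative of `l_i = l_0 x_i` along the surface
  have dl : ∀ a k, pd k (fun z => l a (pt (- C.U z) (sgm C z))) x =
      ∑ j, Ws C.H (C.U x) x k j * pd j.succ (l a) q := by
    intro a k
    rw [pd_bp C hx (by rw [hsgm]; exact hld a) k, hsgm, ← hq]
    have h1 : ∑ j, (Ws C.H (C.U x) x k j + x j * pd k C.U x) * pd j.succ (l a) q =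
        ∑ j, Ws C.H (C.U x) x k j * pd j.succ (l a) q +
          pd k C.U x * ∑ j : Fin n, x j * pd j.succ (l a) q := by
      rw [Finset.mul_sum, ← Finset.sum_add_distrib]
      exact Finset.sum_congr rfl fun j _ => by ring
    rw [h1, geo]
    ring
  have key : ∀ i k, ∑ j, Ws C.H (C.U x) x k j * pd j.succ (l i.succ) q =
      (∑ j, Ws C.H (C.U x) x k j * pd j.succ (l 0) q) * x i + ζ * pr x k i := by
    intro i k
    rw [← dl, ← dl, pd_congr' (f := fun z => l 0 (pt (- C.U z) (sgm C z)) * (z i / ‖z‖))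
      (fun z hz => l_sgm nor hz i) hx0 k]
    have hΦd : DifferentiableAt ℝ (fun z : E n => pt (- C.U z) (sgm C z)) x := by
      rw [differentiableAt_euclidean]
      intro a
      refine Fin.cases ?_ (fun i => ?_) a
      · exact ((smU C).diff hx0).neg
      · exact (sm_sgi C i).diff hx0
    have h1 : DifferentiableAt ℝ (fun z => l 0 (pt (- C.U z) (sgm C z))) x := by
      have h2 : DifferentiableAt ℝ (l 0) (pt (- C.U x) (sgm C x)) := by rw [hsgm]; exact hld 0
      exact DifferentiableAt.comp (g := l 0) (f := fun z : E n => pt (- C.U z) (sgm C z)) x h2 hΦd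
    have h2 : DifferentiableAt ℝ (fun z : E n => z i / ‖z‖) x := (KSN.X2.Sm.ndir i).diff hx0
    rw [Vale.Agent.P366.pd_mul h1 h2, KSN.X2.pd_ndir hx, hsgm, ← hq, hx]
    unfold pr
    have : kd k i = kd k i := rfl
    ring
  -- multiply by the adjugate
  set M := Ms C.H (C.U x) x with hM
  have hadj : M.adjugate * M = M.det • (1 : Matrix (Fin n) (Fin n) ℝ) := Matrix.adjugate_mul M
  have hMx : M.mulVec x = x := by
    funext j
    exact Ms_mul_x C hx j
  have hadjx : M.adjugate.mulVec x = M.det • (x : Fin n → ℝ) := by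
    have h1 : M.adjugate.mulVec (M.mulVec x) = M.det • (x : Fin n → ℝ) := by
      rw [Matrix.mulVec_mulVec, hadj, Matrix.smul_mulVec, Matrix.one_mulVec]
    rwa [hMx] at h1
  have hA1 : ∀ m j, ∑ k, M.adjugate m k * Ws C.H (C.U x) x k j = M.det * pr x m j := by
    intro m j
    have h1 := congrFun (congrFun hadj m) j
    rw [Matrix.mul_apply, Matrix.smul_apply, Matrix.one_apply, smul_eq_mul] at h1
    have h2 := congrFun hadjx m
    simp only [Matrix.mulVec, dotProduct, Pi.smul_apply, smul_eq_mul] at h2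
    have h3 : ∑ k, M.adjugate m k * M k j = ∑ k, M.adjugate m k * Ws C.H (C.U x) x k j +
        (∑ k, M.adjugate m k * x k) * x j := by
      rw [Finset.sum_mul, ← Finset.sum_add_distrib]
      refine Finset.sum_congr rfl fun k _ => ?_
      rw [hM]; unfold Ms; rw [Matrix.of_apply]; ring
    rw [h3, h2] at h1
    unfold pr kd
    linarith
  have hA2 : ∑ i, ∑ k, M.adjugate i k * pr x k i = M.adjugate.trace - M.det := by
    have h1 : ∀ i, ∑ k, M.adjugate i k * pr x k i = M.adjugate i i - M.det * (x i * x i) := by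
      intro i
      have h2 := congrFun hadjx i
      simp only [Matrix.mulVec, dotProduct, Pi.smul_apply, smul_eq_mul] at h2
      have h3 : ∀ k, M.adjugate i k * pr x k i = (if k = i then M.adjugate i k else 0) -
          (M.adjugate i k * x k) * x i := by
        intro k; unfold pr kd; split_ifs <;> ring
      simp only [h3, Finset.sum_sub_distrib, Finset.sum_ite_eq', Finset.mem_univ, if_true,
        ← Finset.sum_mul, h2]
      ring
    have hxx : ∑ i, x i * x i = 1 := KSN.sum_xx hx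
    simp only [h1, Finset.sum_sub_distrib, ← Finset.mul_sum, hxx]
    unfold Matrix.trace Matrix.diag
    ring
  have hxx : ∑ i, x i * x i = 1 := KSN.sum_xx hx
  have e1 : ∀ i, ∑ j, M.det * pr x i j * pd j.succ (l i.succ) q =
      (∑ j, M.det * pr x i j * pd j.succ (l 0) q) * x i + ζ * ∑ k, M.adjugate i k * pr x k i := by
    intro i
    have h1 : ∑ k, M.adjugate i k * ∑ j, Ws C.H (C.U x) x k j * pd j.succ (l i.succ) q =
        ∑ k, M.adjugate i k * ((∑ j, Ws C.H (C.U x) x k j * pd j.succ (l 0) q) * x i +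
          ζ * pr x k i) := Finset.sum_congr rfl fun k _ => by rw [key i k]
    have h2 : ∀ a, ∑ k, M.adjugate i k * ∑ j, Ws C.H (C.U x) x k j * pd j.succ (l a) q =
        ∑ j, M.det * pr x i j * pd j.succ (l a) q := by
      intro a
      simp only [← hA1, Finset.mul_sum, Finset.sum_mul]
      rw [Finset.sum_comm]
      exact Finset.sum_congr rfl fun j _ => Finset.sum_congr rfl fun k _ => by ring
    rw [← h2, h1, ← h2, Finset.mul_sum, Finset.sum_mul, ← Finset.sum_add_distrib]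
    exact Finset.sum_congr rfl fun k _ => by ring
  have e2 : ∑ i, ∑ j, M.det * pr x i j * pd j.succ (l i.succ) q =
      M.det * lth sgn l q := by
    have h1 : ∀ i, ∑ j, M.det * pr x i j * pd j.succ (l i.succ) q =
        M.det * (pd i.succ (l i.succ) q - x i * pd 0 (l i.succ) q) := by
      intro i
      rw [← geo i.succ]
      have h2 : ∀ j, M.det * pr x i j * pd j.succ (l i.succ) q =
          M.det * ((if i = j then pd j.succ (l i.succ) q else 0) -
            x i * (x j * pd j.succ (l i.succ) q)) := by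
        intro j; unfold pr kd; split_ifs <;> ring
      simp only [h2, ← Finset.mul_sum, Finset.sum_sub_distrib, Finset.sum_ite_eq, Finset.mem_univ,
        if_true]
    simp only [h1, ← Finset.mul_sum, Finset.sum_sub_distrib, nul]
    unfold lth
    rw [Fin.sum_univ_succ]
    simp only [s0, ss, one_mul, hspd]
    ring
  have e3 : ∑ i, (∑ j, M.det * pr x i j * pd j.succ (l 0) q) * x i = 0 := by
    simp only [Finset.sum_mul]
    rw [Finset.sum_comm]
    refine Finset.sum_eq_zero fun j _ => ?_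
    have h1 : ∀ i, M.det * pr x i j * pd j.succ (l 0) q * x i =
        M.det * pd j.succ (l 0) q * ((if i = j then x i else 0) - x j * (x i * x i)) := by
      intro i; unfold pr kd; split_ifs <;> ring
    simp only [h1, ← Finset.mul_sum, Finset.sum_sub_distrib, Finset.sum_ite_eq', Finset.mem_univ,
      if_true, hxx]
    ring
  have e4 : ∑ i, ∑ j, M.det * pr x i j * pd j.succ (l i.succ) q =
      ζ * (M.adjugate.trace - M.det) := by
    simp only [e1, Finset.sum_add_distrib, e3, ← Finset.mul_sum, hA2]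
    ring
  rw [e2] at e4
  exact e4

/-- [V5] -/
theorem Z_bdr (hG : IsGraph C l V f D) (hy : 0 ≤ D.F (Y C.H x (C.U x)))
    (hK : IsKSg l V (pt (- C.U x) (Y C.H x (C.U x)))) (nor : ∀ x, x ≠ 0 → ‖x‖ = C.U x → ∀ i : Fin n,
      l i.succ (pt (- C.U x) (Psi C.H x)) = l 0 (pt (- C.U x) (Psi C.H x)) * (x i / ‖x‖))
    (hx : ‖x‖ = 1) (b : Fin (n + 1)) :
    dts C.H (C.U x) x * ∑ i, Zf l V f b i (Y C.H x (C.U x)) * (x i - C.toDat.b x i) =
      -(1 / 2 * (V (pt (- C.U x) (Y C.H x (C.U x))) * l 0 (pt (- C.U x) (Y C.H x (C.U x))) ^ 2 *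
        sg C.H (C.U x) x)) * lx x b := by
  have hx0 := ne_zero_of_one hx
  have hsgm := sgm_one C hx
  have hfb : f (Y C.H x (C.U x)) = - C.U x := by rw [← hsgm]; exact f_sgm hG hx0
  have hth := theta_bdr hK nor hx
  set q := pt (- C.U x) (Y C.H x (C.U x)) with hq
  set ζ := l 0 q with hζ
  obtain ⟨U, hqU, hU⟩ := toKLg' hK
  have hζp : 0 < ζ := hK.fut
  have s0 : sgn (0 : Fin (n + 1)) = -1 := rfl
  have ss : ∀ i : Fin n, sgn i.succ = 1 := fun i => by simp [sgn, Fin.succ_ne_zero]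
  have hl : ∀ a, l a q = ζ * lx x a := by
    intro a
    refine Fin.cases ?_ (fun i => ?_) a
    · simp [lx, hζ]
    · have h1 := l_sgm nor hx0 i
      rw [hsgm, hx, div_one] at h1
      simpa [lx] using h1
  set t := ∑ j, x j * pd j f (Y C.H x (C.U x)) with ht
  set τ := 1 + t with hτ
  set nu : Fin (n + 1) → ℝ := Fin.cons 1 fun j => - pd j f (Y C.H x (C.U x)) with hnu
  set mm : Fin (n + 1) → ℝ := Fin.cons 0 fun i => x i - C.toDat.b x i with hmm
  have hnm : ∀ a, nu a = lx x a - τ * mm a := by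
    intro a
    refine Fin.cases ?_ (fun i => ?_) a
    · simp [hnu, hmm, lx]
    · simp only [hnu, hmm, lx, Fin.cons_succ]
      rw [pd_f_bdr hG hy hx i]
      ring
  set W : Fin (n + 1) → Fin (n + 1) → ℝ := fun a c => UL sgn l V a c b q with hW
  have hanti : ∀ a c, W a c = - W c a := fun a c => UL_anti sgn l V a c b q
  have hZ : ∑ i, Zf l V f b i (Y C.H x (C.U x)) * (x i - C.toDat.b x i) =
      ∑ a, ∑ c, W a c * nu a * mm c := by
    have h1 : ∀ a c, Up l V a c b (pt (f (Y C.H x (C.U x))) (Y C.H x (C.U x))) = W a c := by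
      intro a c
      rw [hfb, ← hq]; exact Up_eq hU hqU a c b
    rw [Finset.sum_comm, Fin.sum_univ_succ]
    have h2 : ∑ a, W a 0 * nu a * mm 0 = 0 := by
      refine Finset.sum_eq_zero fun a _ => ?_
      simp [hmm]
    rw [h2, zero_add]
    refine Finset.sum_congr rfl fun i _ => ?_
    unfold Zf
    simp only [h1]
    rw [Fin.sum_univ_succ]
    simp only [hnu, hmm, Fin.cons_zero, Fin.cons_succ]
    rw [sub_mul, Finset.sum_mul, sub_eq_add_neg, ← Finset.sum_neg_distrib]
    congr 1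
    · ring
    · exact Finset.sum_congr rfl fun j _ => by ring
  have hmmz : ∑ a, ∑ c, W a c * mm a * mm c = 0 := by
    have h1 : ∑ a, ∑ c, W a c * mm a * mm c = - ∑ a, ∑ c, W a c * mm a * mm c := by
      conv_lhs => rw [Finset.sum_comm]
      rw [← Finset.sum_neg_distrib]
      refine Finset.sum_congr rfl fun a _ => ?_
      rw [← Finset.sum_neg_distrib]
      exact Finset.sum_congr rfl fun c _ => by rw [hanti c a]; ring
    linarith
  have hxb : ∑ i, x i * C.toDat.b x i = 0 := C.toDat.b_x hx0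
  have hxx : ∑ i, x i * x i = 1 := KSN.sum_xx hx
  have hml : ∑ c, mm c * (sgn c * l c q) = ζ := by
    rw [Fin.sum_univ_succ]
    simp only [hmm, Fin.cons_zero, Fin.cons_succ, zero_mul, zero_add, ss, one_mul, hl, lx]
    have h1 : ∀ i : Fin n, (x i - C.toDat.b x i) * (ζ * x i) =
        ζ * (x i * x i) - ζ * (x i * C.toDat.b x i) := fun i => by ring
    simp only [h1, Finset.sum_sub_distrib, ← Finset.mul_sum, hxx, hxb]
    ring
  have hwl : ∑ a, ∑ c, W a c * l a q * mm c = - (V q * lth sgn l q * l b q / 2 * ζ) := by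
    rw [Finset.sum_comm]
    have h1 : ∀ c, ∑ a, W a c * l a q * mm c =
        - (V q * lth sgn l q * l b q / 2 * (mm c * (sgn c * l c q))) := by
      intro c
      have h2 := hU.UL_l hqU c b
      have h3 : ∑ a, W a c * l a q * mm c = - ((∑ a, UL sgn l V c a b q * l a q) * mm c) := by
        rw [Finset.sum_mul, ← Finset.sum_neg_distrib]
        exact Finset.sum_congr rfl fun a _ => by rw [hanti a c]; ring
      rw [h3, h2]
      ring
    simp only [h1, Finset.sum_neg_distrib, ← Finset.mul_sum, hml]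
  have hfin : ζ * ∑ a, ∑ c, W a c * nu a * mm c = ζ * (- (V q * lth sgn l q * l b q / 2)) := by
    have h1 : ζ * ∑ a, ∑ c, W a c * nu a * mm c =
        ∑ a, ∑ c, W a c * l a q * mm c - ζ * τ * ∑ a, ∑ c, W a c * mm a * mm c := by
      rw [Finset.mul_sum, Finset.mul_sum, ← Finset.sum_sub_distrib]
      refine Finset.sum_congr rfl fun a _ => ?_
      rw [Finset.mul_sum, Finset.mul_sum, ← Finset.sum_sub_distrib]
      refine Finset.sum_congr rfl fun c _ => ?_
      rw [hnm, hl]; ring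
    rw [h1, hmmz, hwl]; ring
  rw [hZ, mul_left_cancel₀ hζp.ne' hfin, hl b]
  have : dts C.H (C.U x) x * -(V q * lth sgn l q * (ζ * lx x b) / 2) =
      - (V q * (ζ * lx x b) / 2) * (dts C.H (C.U x) x * lth sgn l q) := by ring
  rw [this, hth]
  ring

end Vale.Agent.P366.KSL
end
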