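import Vale.Agent.P366.H896.L.RadB

/-! Vacuum on a hypersurface for the radial field: the differential of `V` on the hypersurface. -/

open MeasureTheory Metric Filter Topology Set
open scoped ContDiff ENNReal

noncomputable section
namespace Vale.Agent.P366.KSL.Rad

open Vale.Agent.P366 (pd E)
open Vale.Agent.P366.H353.N
open Vale.Agent.P366.Kerr (NullCone Psi pt sp sgn ksL IsKS IsGraph)
open Vale.Agent.P366.KSN (stmt_pd stmt_pd2)
open Vale.Agent.P366.KSN.X5 (cdd cd_pd DP)

variable {n : ℕ} {c y : E n} {l : Fin (n + 1) → E (n + 1) → ℝ} {V : E (n + 1) → ℝ} {f : E n → ℝ}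
  {p : E (n + 1)}

/-- the vacuum equations at a point, see `vac` -/
def Vc (c : E n) (V : E (n + 1) → ℝ) (p : E (n + 1)) : Prop :=
    ((∑ i, nc c i (sp p) * pd i.succ V p) - pd 0 V p = -((n : ℝ) - 2) * V p / ‖sp p - c‖) ∧
    (hs V 0 0 p - 2 * ∑ i : Fin n, nc c i (sp p) * hs V 0 i.succ p +
        ∑ i : Fin n, ∑ j : Fin n, nc c i (sp p) * nc c j (sp p) * hs V i.succ j.succ p =
      ((n : ℝ) - 1) * (n - 2) * V p / ‖sp p - c‖ ^ 2) ∧
    (∀ v : Fin n → ℝ, ∑ i, nc c i (sp p) * v i = 0 →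
      ∑ i, v i * ((∑ j : Fin n, nc c j (sp p) * hs V i.succ j.succ p) - hs V 0 i.succ p) +
        ((n : ℝ) - 2) / ‖sp p - c‖ * ∑ i, v i * pd i.succ V p = 0) ∧
    ((∑ i : Fin n, hs V i.succ i.succ p) -
        (∑ i : Fin n, ∑ j : Fin n, nc c i (sp p) * nc c j (sp p) * hs V i.succ j.succ p) -
        ((n : ℝ) - 1) / ‖sp p - c‖ * (∑ i, nc c i (sp p) * pd i.succ V p) =
      ((n : ℝ) - 1) / ‖sp p - c‖ * pd 0 V p)

lemma hk1 (i : Fin n) (F : Fin n → ℝ) : ∑ j, kd i j * F j = F i := by simp [kd]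

lemma DP.zero {k : Fin n} {F : E n → ℝ} {d : ℝ} (h : DP k F d y) (e : ∀ᶠ z in 𝓝 y, F z = 0) :
    d = 0 := by
  have e' : F =ᶠ[𝓝 y] fun _ => 0 := e
  rw [← h.2]
  unfold Vale.Agent.P366.pd
  rw [e'.fderiv_eq]
  simp

/-- derivatives of `pd a V` along the graph -/
lemma dpA (hf : DifferentiableAt ℝ f y) (hV : ContDiffAt ℝ ∞ V (pt (f y) y)) (a : Fin (n + 1))
    (k : Fin n) : DP k (fun z => pd a V (pt (f z) z))
      (hs V k.succ a (pt (f y) y) + pd k f y * hs V 0 a (pt (f y) y)) y :=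
  KSN.Gr.dp_gr (cdd (cd_pd hV a)) hf k

lemma dpV (hf : DifferentiableAt ℝ f y) (hV : ContDiffAt ℝ ∞ V (pt (f y) y))
    (k : Fin n) : DP k (fun z => V (pt (f z) z))
      (pd k.succ V (pt (f y) y) + pd k f y * pd 0 V (pt (f y) y)) y :=
  KSN.Gr.dp_gr (cdd hV) hf k

/-- index form of the third equation -/
lemma vc3 (hc : y ≠ c) (hp : sp p = y) (h : Vc c V p) (i : Fin n) :
    (∑ j : Fin n, nc c j y * hs V i.succ j.succ p) - hs V 0 i.succ p -
      nc c i y * ((∑ i : Fin n, ∑ j : Fin n, nc c i y * nc c j y * hs V i.succ j.succ p) -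
        ∑ i : Fin n, nc c i y * hs V 0 i.succ p) +
      ((n : ℝ) - 2) / ‖y - c‖ * (pd i.succ V p - nc c i y * ∑ j, nc c j y * pd j.succ V p) = 0 := by
  have h3 := h.2.2.1 (fun j => kd i j - nc c i y * nc c j y) (by
    rw [hp]
    have h1 : ∀ j, nc c j y * (kd i j - nc c i y * nc c j y) =
        kd i j * nc c j y - nc c i y * (nc c j y * nc c j y) := fun j => by ring
    simp only [h1, Finset.sum_sub_distrib, hk1, ← Finset.mul_sum, sum_nc hc]
    ring)
  rw [hp] at h3
  have h1 : ∀ j, (kd i j - nc c i y * nc c j y) *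
      ((∑ k : Fin n, nc c k y * hs V j.succ k.succ p) - hs V 0 j.succ p) =
      kd i j * ((∑ k : Fin n, nc c k y * hs V j.succ k.succ p) - hs V 0 j.succ p) -
        nc c i y * ((∑ k : Fin n, nc c j y * nc c k y * hs V j.succ k.succ p) -
          nc c j y * hs V 0 j.succ p) := by
    intro j
    have h2 : ∑ k : Fin n, nc c j y * nc c k y * hs V j.succ k.succ p =
        nc c j y * ∑ k : Fin n, nc c k y * hs V j.succ k.succ p := by
      rw [Finset.mul_sum]; exact Finset.sum_congr rfl fun j _ => by ring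
    rw [h2]; ring
  have h2 : ∀ j, (kd i j - nc c i y * nc c j y) * pd j.succ V p =
      kd i j * pd j.succ V p - nc c i y * (nc c j y * pd j.succ V p) := fun j => by ring
  simp only [h1, h2, Finset.sum_sub_distrib, ← Finset.mul_sum] at h3
  rw [hk1 i fun j => (∑ k : Fin n, nc c k y * hs V j.succ k.succ p) - hs V 0 j.succ p,
    hk1 i fun j => pd j.succ V p] at h3
  exact h3

/-- the tangential derivatives of `V` vanish -/
theorem st1 (hc : y ≠ c) (hf : DifferentiableAt ℝ f y) (hV : ContDiffAt ℝ ∞ V (pt (f y) y))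
    (h : ∀ᶠ z in 𝓝 y, Vc c V (pt (f z) z)) (hτ : 1 + ∑ i, nc c i y * pd i f y ≠ 0) (i : Fin n) :
    pd i.succ V (pt (f y) y) = (∑ j, nc c j y * pd j.succ V (pt (f y) y)) * nc c i y := by
  set q := pt (f y) y with hq
  have hsp : sp q = y := KSN.X5.sp_pt (f y) y
  set r := ‖y - c‖ with hr
  have hr0 : r ≠ 0 := norm_ne_zero_iff.2 (ne_sub hc)
  have hy := h.self_of_nhds
  have hnn1 := sum_nc hc
  have hVs : ∀ a b, hs V a b q = hs V b a q := fun a b => KSN.X5.pd_comm' hV a b
  set An := ∑ j, nc c j y * pd j.succ V q with hAn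
  set fn := ∑ j, nc c j y * pd j f y with hfn
  set S1 := ∑ j : Fin n, nc c j y * hs V 0 j.succ q with hS1
  set S2 := ∑ i : Fin n, ∑ j : Fin n, nc c i y * nc c j y * hs V i.succ j.succ q with hS2
  -- derivative of the first equation
  have hF : ∀ᶠ z in 𝓝 y, (∑ j, nc c j z * pd j.succ V (pt (f z) z)) - pd 0 V (pt (f z) z) +
      ((n : ℝ) - 2) * (V (pt (f z) z) * (1 / ‖z - c‖)) = 0 := by
    filter_upwards [h] with z hz
    have h1 := hz.1
    rw [KSN.X5.sp_pt] at h1
    rw [h1]; ring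
  have hE : ∀ k : Fin n, (pd k.succ V q - nc c k y * An) / r +
      ((∑ j : Fin n, nc c j y * hs V k.succ j.succ q) + pd k f y * S1) -
      (hs V 0 k.succ q + pd k f y * hs V 0 0 q) +
      ((n : ℝ) - 2) * ((pd k.succ V q + pd k f y * pd 0 V q) / r -
        V q * nc c k y / r ^ 2) = 0 := by
    intro k
    have h1 := DP.zero (((DP.sum Finset.univ fun j => (dp_nc hc k j).mul (dpA hf hV j.succ k)).sub
      (dpA hf hV 0 k)).add (((dpV hf hV k).mul (dp_rinv hc k)).cmul ((n : ℝ) - 2))) hF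
    rw [← hq, ← hr] at h1
    have h2 : ∀ j, (kd k j - nc c k y * nc c j y) / r * pd j.succ V q +
        nc c j y * (hs V k.succ j.succ q + pd k f y * hs V 0 j.succ q) =
        (kd k j * pd j.succ V q - nc c k y * (nc c j y * pd j.succ V q)) / r +
        (nc c j y * hs V k.succ j.succ q + pd k f y * (nc c j y * hs V 0 j.succ q)) :=
      fun j => by ring
    simp only [h2, Finset.sum_add_distrib, ← Finset.sum_div, Finset.sum_sub_distrib,
      ← Finset.mul_sum, hk1 k fun j => pd j.succ V q, ← hS1, ← hAn] at h1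
    rw [hVs k.succ 0] at h1
    linear_combination h1
  have hEn : S2 - S1 + fn * (S1 - hs V 0 0 q + ((n : ℝ) - 2) * pd 0 V q / r) +
      ((n : ℝ) - 2) * (An / r - V q / r ^ 2) = 0 := by
    have h1 : ∑ k, nc c k y * ((pd k.succ V q - nc c k y * An) / r +
      ((∑ j : Fin n, nc c j y * hs V k.succ j.succ q) + pd k f y * S1) -
      (hs V 0 k.succ q + pd k f y * hs V 0 0 q) +
      ((n : ℝ) - 2) * ((pd k.succ V q + pd k f y * pd 0 V q) / r -
        V q * nc c k y / r ^ 2)) = 0 := Finset.sum_eq_zero fun k _ => by rw [hE k, mul_zero]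
    have h2 : ∀ k, nc c k y * ((pd k.succ V q - nc c k y * An) / r +
      ((∑ j : Fin n, nc c j y * hs V k.succ j.succ q) + pd k f y * S1) -
      (hs V 0 k.succ q + pd k f y * hs V 0 0 q) +
      ((n : ℝ) - 2) * ((pd k.succ V q + pd k f y * pd 0 V q) / r -
        V q * nc c k y / r ^ 2)) =
        (1 / r + ((n : ℝ) - 2) / r) * (nc c k y * pd k.succ V q) -
        (An / r + ((n : ℝ) - 2) * V q / r ^ 2) * (nc c k y * nc c k y) +
        (∑ j : Fin n, nc c k y * nc c j y * hs V k.succ j.succ q) +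
        (S1 - hs V 0 0 q + ((n : ℝ) - 2) * pd 0 V q / r) * (nc c k y * pd k f y) -
        nc c k y * hs V 0 k.succ q := by
      intro k
      have h3 : ∑ j : Fin n, nc c k y * nc c j y * hs V k.succ j.succ q =
          nc c k y * ∑ j : Fin n, nc c j y * hs V k.succ j.succ q := by
        rw [Finset.mul_sum]; exact Finset.sum_congr rfl fun j _ => by ring
      rw [h3]; ring
    simp only [h2, Finset.sum_add_distrib, Finset.sum_sub_distrib, ← Finset.mul_sum, hnn1,
      ← hS1, ← hAn, ← hfn, ← hS2] at h1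
    linear_combination h1
  have c1 := hy.1
  have c2 := hy.2.1
  rw [hsp, ← hq, ← hAn, ← hr] at c1
  rw [hsp, ← hq, ← hS1, ← hS2, ← hr] at c2
  have hX : S1 - hs V 0 0 q + ((n : ℝ) - 2) * pd 0 V q / r = 0 := by
    have h1 : (1 + fn) * (S1 - hs V 0 0 q + ((n : ℝ) - 2) * pd 0 V q / r) = 0 := by
      have h2 : An = pd 0 V q + -((n : ℝ) - 2) * V q / r := by linarith
      have h3 : S2 = ((n : ℝ) - 1) * (n - 2) * V q / r ^ 2 - hs V 0 0 q + 2 * S1 := by linarith
      rw [h2, h3] at hEn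
      have h4 : (pd 0 V q + -((n : ℝ) - 2) * V q / r) / r =
          pd 0 V q / r - ((n : ℝ) - 2) * V q / r ^ 2 := by field_simp; ring
      rw [h4] at hEn
      linear_combination hEn
    exact (mul_eq_zero.1 h1).resolve_left hτ
  have h3 := vc3 hc hsp hy i
  rw [← hS2, ← hS1, ← hAn, ← hr] at h3
  have h4 := hE i
  have h5 : (pd i.succ V q - nc c i y * An) / r = 0 := by
    linear_combination h4 - nc c i y * hEn - h3 - (pd i f y - nc c i y * fn) * hX
  have h6 := (div_eq_zero_iff.1 h5).resolve_right hr0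
  linarith

/-- **Vacuum on a hypersurface**: the differential of `V`. -/
theorem st2 (hn : 2 ≤ n) (hc : y ≠ c) (hf : ContDiffAt ℝ ∞ f y)
    (hV : ∀ᶠ z in 𝓝 y, ContDiffAt ℝ ∞ V (pt (f z) z))
    (h : ∀ᶠ z in 𝓝 y, Vc c V (pt (f z) z)) (hτ : 1 + ∑ i, nc c i y * pd i f y ≠ 0) :
    pd 0 V (pt (f y) y) = 0 ∧ ∀ i, pd i.succ V (pt (f y) y) =
      -((n : ℝ) - 2) * V (pt (f y) y) / ‖y - c‖ * nc c i y := by
  have hVy := hV.self_of_nhds
  have hfd := cdd hf
  have hτ' : ∀ᶠ z in 𝓝 y, 1 + ∑ i, nc c i z * pd i f z ≠ 0 := by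
    have h1 : ContinuousAt (fun z => 1 + ∑ i, nc c i z * pd i f z) y := by
      have h2 : ContDiffAt ℝ ∞ (fun z => 1 + ∑ i, nc c i z * pd i f z) y :=
        contDiffAt_const.add (ContDiffAt.sum fun i _ => (nc_cd hc i).mul (cd_pd hf i))
      exact h2.continuousAt
    exact h1.eventually_ne hτ
  have hf' : ∀ᶠ z in 𝓝 y, DifferentiableAt ℝ f z := by
    have h1 : ∀ᶠ z in 𝓝 y, ContDiffAt ℝ ((1 : ℕ) : WithTop ℕ∞) f z :=
      (hf.of_le (KSN.X1.nat_le_smooth 1)).eventually (by simp)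
    exact h1.mono fun z hz => hz.differentiableAt (by simp)
  have hc' : ∀ᶠ z in 𝓝 y, z ≠ c := isOpen_ne.mem_nhds hc
  have hT : ∀ᶠ z in 𝓝 y, ∀ i, pd i.succ V (pt (f z) z) =
      (∑ j, nc c j z * pd j.succ V (pt (f z) z)) * nc c i z := by
    filter_upwards [hτ', hf', hc', hV, h.eventually_nhds] with z h1 h2 h3 h4 h5 i
    exact st1 h3 h2 h4 h5 h1 i
  set q := pt (f y) y with hq
  have hsp : sp q = y := KSN.X5.sp_pt (f y) y
  set r := ‖y - c‖ with hr
  have hr0 : r ≠ 0 := norm_ne_zero_iff.2 (ne_sub hc)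
  have hy := h.self_of_nhds
  have hnn1 := sum_nc hc
  have hVs : ∀ a b, hs V a b q = hs V b a q := fun a b => KSN.X5.pd_comm' hVy a b
  have hks : ∀ i j : Fin n, kd i j = kd j i := by intro i j; unfold kd; simp only [eq_comm]
  have hkk : ∑ i : Fin n, kd i i = (n : ℝ) := by simp [kd]
  set An := ∑ j, nc c j y * pd j.succ V q with hAn
  set fn := ∑ j, nc c j y * pd j f y with hfn
  set S1 := ∑ j : Fin n, nc c j y * hs V 0 j.succ q with hS1
  set S2 := ∑ i : Fin n, ∑ j : Fin n, nc c i y * nc c j y * hs V i.succ j.succ q with hS2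
  have hTy := hT.self_of_nhds
  rw [← hq, ← hAn] at hTy
  have c1 := hy.1
  have c2 := hy.2.1
  have c4 := hy.2.2.2
  rw [hsp, ← hq, ← hAn, ← hr] at c1
  rw [hsp, ← hq, ← hAn, ← hS2, ← hr] at c4
  -- derivative of the tangential equation
  have hH : ∀ i k : Fin n, hs V k.succ i.succ q + pd k f y * hs V 0 i.succ q -
      ((∑ j : Fin n, nc c j y * hs V k.succ j.succ q) + pd k f y * S1) * nc c i y -
      An * ((kd k i - nc c k y * nc c i y) / r) = 0 := by
    intro i k
    have hF : ∀ᶠ z in 𝓝 y, pd i.succ V (pt (f z) z) -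
        (∑ j, nc c j z * pd j.succ V (pt (f z) z)) * nc c i z = 0 := by
      filter_upwards [hT] with z hz
      rw [hz i]; ring
    have h1 := DP.zero ((dpA hfd hVy i.succ k).sub ((DP.sum Finset.univ fun j =>
      (dp_nc hc k j).mul (dpA hfd hVy j.succ k)).mul (dp_nc hc k i))) hF
    rw [← hq, ← hr] at h1
    have h2 : ∀ j, (kd k j - nc c k y * nc c j y) / r * pd j.succ V q +
        nc c j y * (hs V k.succ j.succ q + pd k f y * hs V 0 j.succ q) =
        (kd k j * pd j.succ V q - nc c k y * (nc c j y * pd j.succ V q)) / r +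
        (nc c j y * hs V k.succ j.succ q + pd k f y * (nc c j y * hs V 0 j.succ q)) :=
      fun j => by ring
    simp only [h2, Finset.sum_add_distrib, ← Finset.sum_div, Finset.sum_sub_distrib,
      ← Finset.mul_sum, hk1 k fun j => pd j.succ V q, ← hS1, ← hAn] at h1
    rw [hTy k] at h1
    linear_combination h1
  have hQ : ∀ i, ((∑ j : Fin n, nc c j y * hs V i.succ j.succ q) - S2 * nc c i y) +
      fn * (hs V 0 i.succ q - S1 * nc c i y) = 0 := by
    intro i
    have h1 : ∑ k, nc c k y * (hs V k.succ i.succ q + pd k f y * hs V 0 i.succ q -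
      ((∑ j : Fin n, nc c j y * hs V k.succ j.succ q) + pd k f y * S1) * nc c i y -
      An * ((kd k i - nc c k y * nc c i y) / r)) = 0 :=
      Finset.sum_eq_zero fun k _ => by rw [hH i k, mul_zero]
    have h2 : ∀ k, nc c k y * (hs V k.succ i.succ q + pd k f y * hs V 0 i.succ q -
      ((∑ j : Fin n, nc c j y * hs V k.succ j.succ q) + pd k f y * S1) * nc c i y -
      An * ((kd k i - nc c k y * nc c i y) / r)) =
        nc c k y * hs V i.succ k.succ q + (hs V 0 i.succ q - S1 * nc c i y) *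
          (nc c k y * pd k f y) -
        nc c i y * (∑ j : Fin n, nc c k y * nc c j y * hs V k.succ j.succ q) -
        An / r * (kd i k * nc c k y) + An / r * nc c i y * (nc c k y * nc c k y) := by
      intro k
      have h3 : ∑ j : Fin n, nc c k y * nc c j y * hs V k.succ j.succ q =
          nc c k y * ∑ j : Fin n, nc c j y * hs V k.succ j.succ q := by
        rw [Finset.mul_sum]; exact Finset.sum_congr rfl fun j _ => by ring
      rw [h3, hVs k.succ i.succ, hks k i]; ring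
    simp only [h2, Finset.sum_add_distrib, Finset.sum_sub_distrib, ← Finset.mul_sum, hnn1,
      ← hfn, ← hS2, hk1 i fun k => nc c k y] at h1
    linear_combination h1
  have hV0 : ∀ i : Fin n, hs V 0 i.succ q = S1 * nc c i y := by
    intro i
    have h3 := vc3 hc hsp hy i
    rw [← hS2, ← hS1, ← hAn, ← hr, hTy i] at h3
    have h4 := hQ i
    have h5 : (1 + fn) * (hs V 0 i.succ q - S1 * nc c i y) = 0 := by
      linear_combination h4 - h3
    have := (mul_eq_zero.1 h5).resolve_left hτ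
    linarith
  have hL : (∑ i : Fin n, hs V i.succ i.succ q) - S2 - ((n : ℝ) - 1) / r * An = 0 := by
    have h1 : ∑ i, (hs V i.succ i.succ q + pd i f y * hs V 0 i.succ q -
      ((∑ j : Fin n, nc c j y * hs V i.succ j.succ q) + pd i f y * S1) * nc c i y -
      An * ((kd i i - nc c i y * nc c i y) / r)) = 0 :=
      Finset.sum_eq_zero fun k _ => hH k k
    have h2 : ∀ i, (hs V i.succ i.succ q + pd i f y * hs V 0 i.succ q -
      ((∑ j : Fin n, nc c j y * hs V i.succ j.succ q) + pd i f y * S1) * nc c i y -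
      An * ((kd i i - nc c i y * nc c i y) / r)) = hs V i.succ i.succ q -
        (∑ j : Fin n, nc c i y * nc c j y * hs V i.succ j.succ q) - An / r * kd i i +
        An / r * (nc c i y * nc c i y) := by
      intro k
      have h3 : ∑ j : Fin n, nc c k y * nc c j y * hs V k.succ j.succ q =
          nc c k y * ∑ j : Fin n, nc c j y * hs V k.succ j.succ q := by
        rw [Finset.mul_sum]; exact Finset.sum_congr rfl fun j _ => by ring
      rw [h3, hV0 k]; ring
    simp only [h2, Finset.sum_add_distrib, Finset.sum_sub_distrib, ← Finset.mul_sum, hnn1,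
      ← hS2, hkk] at h1
    linear_combination h1
  have hn1 : ((n : ℝ) - 1) ≠ 0 := by
    have : (2 : ℝ) ≤ n := by exact_mod_cast hn
    intro h; linarith
  have hV00 : pd 0 V q = 0 := by
    have h1 : ((n : ℝ) - 1) / r * pd 0 V q = 0 := by rw [← c4, hL]
    exact (mul_eq_zero.1 h1).resolve_left (div_ne_zero hn1 hr0)
  refine ⟨hV00, fun i => ?_⟩
  rw [hTy i]
  rw [hV00, sub_zero] at c1
  rw [c1]

/-- `V` and its differential on a hypersurface on which the Einstein tensor vanishes. -/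
theorem rad_grad (hn : 2 ≤ n) (hc : y ≠ c) (hf : ContDiffAt ℝ ∞ f y)
    (hK : ∀ᶠ z in 𝓝 y, IsKSg l V (pt (f z) z))
    (hl : ∀ᶠ z in 𝓝 y, ∀ a, l a =ᶠ[𝓝 (pt (f z) z)] rad c a)
    (hG : ∀ᶠ z in 𝓝 y, ∀ a b, Gm l V a b (pt (f z) z) = 0)
    (hτ : 1 + ∑ i, nc c i y * pd i f y ≠ 0) :
    pd 0 V (pt (f y) y) = 0 ∧ (∀ i, pd i.succ V (pt (f y) y) =
      -((n : ℝ) - 2) * V (pt (f y) y) / ‖y - c‖ * nc c i y) ∧
    ∀ i, pd i (fun z => V (pt (f z) z)) y =
      -((n : ℝ) - 2) * V (pt (f y) y) / ‖y - c‖ * nc c i y := by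
  have hc' : ∀ᶠ z in 𝓝 y, z ≠ c := isOpen_ne.mem_nhds hc
  have h : ∀ᶠ z in 𝓝 y, Vc c V (pt (f z) z) := by
    filter_upwards [hK, hl, hG, hc'] with z h1 h2 h3 h4
    exact vac hn h1 h2 (by rw [KSN.X5.sp_pt]; exact h4) h3
  have h2 := st2 hn hc hf (hK.mono fun z hz => hz.smV) h hτ
  refine ⟨h2.1, h2.2, fun i => ?_⟩
  rw [(dpV (cdd hf) hK.self_of_nhds.smV i).2, h2.1, h2.2 i]
  ring

end Vale.Agent.P366.KSL.Rad
end
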