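import Vale.Agent.P366.H896.L.Glue

/-! The radial field `(y - c) / |y - c|`: derivatives. -/

open MeasureTheory Metric Filter Topology Set
open scoped ContDiff ENNReal

noncomputable section
namespace Vale.Agent.P366.KSL.Rad

open Vale.Agent.P366 (pd E)
open Vale.Agent.P366.H353.N
open Vale.Agent.P366.H896
open Vale.Agent.P366.Kerr (NullCone Psi pt sp sgn ksL IsKS IsGraph)
open Vale.Agent.P366.KSN (stmt_pd stmt_pd2)
open Vale.Agent.P366.KSN.X5 (cdd cd_pd DP)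

variable {n : ℕ} {c y : E n}

/-- the components of `(y - c) / |y - c|` -/
def nc (c : E n) (i : Fin n) (y : E n) : ℝ := (y i - c i) / ‖y - c‖

/-- the radial null covector field `(1, (y - c) / |y - c|)` -/
def rad (c : E n) (a : Fin (n + 1)) (p : E (n + 1)) : ℝ :=
  Fin.cons (α := fun _ => ℝ) 1 (fun i => nc c i (sp p)) a

lemma pd_trans (F : E n → ℝ) (k : Fin n) : pd k (fun z => F (z - c)) y = pd k F (y - c) := by
  unfold Vale.Agent.P366.pd
  rw [fderiv_comp_sub]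

lemma ne_sub (h : y ≠ c) : y - c ≠ 0 := sub_ne_zero.2 h

lemma dp_r (h : y ≠ c) (k : Fin n) : DP k (fun z => ‖z - c‖) (nc c k y) y := by
  constructor
  · have h1 : ContDiffAt ℝ ∞ (fun z : E n => ‖z‖) (y - c) := contDiffAt_norm ℝ (ne_sub h)
    exact cdd (h1.comp (f := fun z : E n => z - c) y (contDiffAt_id.sub contDiffAt_const))
  · rw [pd_trans (fun z : E n => ‖z‖) k, Vale.Agent.P366.pd_norm (ne_sub h)]
    rfl

lemma nc_cd (h : y ≠ c) (i : Fin n) : ContDiffAt ℝ ∞ (nc c i) y := by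
  have h1 : ContDiffAt ℝ ∞ (fun z : E n => z i / ‖z‖) (y - c) :=
    Vale.Agent.P366.contDiffAt_Nc i (ne_sub h)
  exact h1.comp (f := fun z : E n => z - c) y (contDiffAt_id.sub contDiffAt_const)

lemma r_cd (h : y ≠ c) : ContDiffAt ℝ ∞ (fun z => ‖z - c‖) y := by
  have h1 : ContDiffAt ℝ ∞ (fun z : E n => ‖z‖) (y - c) := contDiffAt_norm ℝ (ne_sub h)
  exact h1.comp (f := fun z : E n => z - c) y (contDiffAt_id.sub contDiffAt_const)

lemma dp_nc (h : y ≠ c) (k i : Fin n) :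
    DP k (nc c i) ((kd k i - nc c k y * nc c i y) / ‖y - c‖) y := by
  refine ⟨cdd (nc_cd h i), ?_⟩
  have h1 := pd_trans (c := c) (y := y) (fun z : E n => z i / ‖z‖) k
  have h2 := Vale.Agent.P366.pd_Nc (ne_sub h) k i
  exact h1.trans h2

lemma dp_rinv (h : y ≠ c) (k : Fin n) :
    DP k (fun z => 1 / ‖z - c‖) (- nc c k y / ‖y - c‖ ^ 2) y := by
  have hr : ‖y - c‖ ≠ 0 := norm_ne_zero_iff.2 (ne_sub h)
  have hd : DifferentiableAt ℝ (fun z => 1 / ‖z - c‖) y :=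
    cdd (contDiffAt_const.div (r_cd h) hr)
  refine ⟨hd, ?_⟩
  have h1 := (DP.of (k := k) hd).mul (dp_r h k)
  have h2 : DP k (fun z : E n => 1 / ‖z - c‖ * ‖z - c‖) 0 y := by
    have h3 : (fun z : E n => 1 / ‖z - c‖ * ‖z - c‖) =ᶠ[𝓝 y] fun _ => 1 := by
      filter_upwards [isOpen_ne.mem_nhds h] with z hz
      exact one_div_mul_cancel (norm_ne_zero_iff.2 (ne_sub hz))
    refine ⟨(differentiableAt_const (1 : ℝ)).congr_of_eventuallyEq h3, ?_⟩
    unfold Vale.Agent.P366.pd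
    rw [h3.fderiv_eq]
    simp
  have h4 := h1.2.symm.trans h2.2
  have h5 : pd k (fun z => 1 / ‖z - c‖) y * ‖y - c‖ = - (1 / ‖y - c‖ * nc c k y) := by linarith
  field_simp at h5 ⊢
  linarith

lemma dp_congr {f g : E n → ℝ} {d : ℝ} {k : Fin n} (h : DP k f d y) (e : g =ᶠ[𝓝 y] f) :
    DP k g d y := by
  refine ⟨h.1.congr_of_eventuallyEq e, ?_⟩
  have h2 := h.2
  unfold Vale.Agent.P366.pd at h2 ⊢
  rw [e.fderiv_eq]
  exact h2

/-- second derivatives -/
lemma hs_nc (h : y ≠ c) (k j i : Fin n) : hs (nc c i) k j y =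
    -((kd k j - nc c k y * nc c j y) * nc c i y + (kd k i - nc c k y * nc c i y) * nc c j y +
      (kd j i - nc c j y * nc c i y) * nc c k y) / ‖y - c‖ ^ 2 := by
  have hr : ‖y - c‖ ≠ 0 := norm_ne_zero_iff.2 (ne_sub h)
  have e : pd j (nc c i) =ᶠ[𝓝 y] fun z => (kd j i - nc c j z * nc c i z) * (1 / ‖z - c‖) := by
    filter_upwards [isOpen_ne.mem_nhds h] with z hz
    rw [(dp_nc hz j i).2]; ring
  have h1 : DP k (fun z => (kd j i - nc c j z * nc c i z) * (1 / ‖z - c‖)) _ y :=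
    ((DP.const (kd j i)).sub ((dp_nc h k j).mul (dp_nc h k i))).mul (dp_rinv h k)
  have h2 := (dp_congr h1 e).2
  unfold hs
  rw [h2]
  field_simp
  ring

lemma sum_nc (h : y ≠ c) : ∑ i, nc c i y * nc c i y = 1 := by
  have hr : ‖y - c‖ ≠ 0 := norm_ne_zero_iff.2 (ne_sub h)
  have h1 : ‖y - c‖ ^ 2 = ∑ i, (y i - c i) ^ 2 := by
    rw [EuclideanSpace.norm_sq_eq]
    exact Finset.sum_congr rfl fun i _ => by
      rw [Real.norm_eq_abs, sq_abs]; rfl
  have h2 : ∀ i, nc c i y * nc c i y = (y i - c i) ^ 2 / ‖y - c‖ ^ 2 := by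
    intro i; unfold nc; field_simp
  simp only [h2, ← Finset.sum_div, ← h1]
  exact div_self (pow_ne_zero 2 hr)

end Vale.Agent.P366.KSL.Rad
end
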