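import Vale.Agent.P366.H896.L.RadA

/-! The vacuum equations at a point, for the radial field. -/

open MeasureTheory Metric Filter Topology Set
open scoped ContDiff ENNReal

noncomputable section

namespace Vale.Agent.P366.H896.KLg
open Vale.Agent.P366.Stmt Vale.Agent.P366.T2

variable {m : ℕ} {e : Fin m → ℝ} {g : Field m} {l : Fin m → E m → ℝ} {V : E m → ℝ}
  {U : Set (E m)} (h : KLg e g l V U)
include h

/-- the derivatives of `φ` -/
lemma pd_lph {x : E m} (hx : x ∈ U) (a : Fin m) : Stmt.pd a (lph e l V) x =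
    ∑ c, e c * (Stmt.pd a (l c) x * Stmt.pd c V x + l c x * Stmt.pd a (Stmt.pd c V) x) +
      (Stmt.pd a V x * lth e l x + V x * ∑ c, e c * Stmt.pd a (Stmt.pd c (l c)) x) := by
  have h1 : HP a (lk e l V) (∑ c, e c * (Stmt.pd a (l c) x * Stmt.pd c V x + l c x * Stmt.pd a (Stmt.pd c V) x)) x :=
    HP.sum _ fun c _ => (((h.sl0 c).hp hx a).mul ((h.sV1 c).hp hx a)).const_mul (e c)
  have h2 : HP a (lth e l) (∑ c, e c * Stmt.pd a (Stmt.pd c (l c)) x) x :=
    HP.sum _ fun c _ => ((h.sl1 c c).hp hx a).const_mul (e c)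
  have h3 : HP a (lph e l V) _ x := h1.add ((h.sV0.hp hx a).mul h2)
  exact h3.pd

end Vale.Agent.P366.H896.KLg

namespace Vale.Agent.P366.KSL.Rad

open Vale.Agent.P366 (pd E)
open Vale.Agent.P366.H353.N
open Vale.Agent.P366.H896
open Vale.Agent.P366.Kerr (NullCone Psi pt sp sgn ksL IsKS IsGraph)
open Vale.Agent.P366.KSN (stmt_pd stmt_pd2)
open Vale.Agent.P366.KSN.X1 (spd_succ spd_zero)
open Vale.Agent.P366.KSN.X5 (cdd cd_pd DP)

variable {n : ℕ} {c : E n} {l : Fin (n + 1) → E (n + 1) → ℝ} {V : E (n + 1) → ℝ} {p : E (n + 1)}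

lemma rad_zero (c : E n) : rad c 0 = fun _ => 1 := rfl
lemma rad_succ (c : E n) (i : Fin n) : rad c i.succ = fun q => nc c i (sp q) := rfl

section
variable (hl : ∀ a, l a =ᶠ[𝓝 p] rad c a) (hc : sp p ≠ c)
include hl

lemma l_zero : l 0 p = 1 := (hl 0).eq_of_nhds
lemma l_succ (i : Fin n) : l i.succ p = nc c i (sp p) := (hl i.succ).eq_of_nhds

lemma d_zero (a : Fin (n + 1)) : Stmt.pd a (l 0) p = 0 := by
  rw [pd_congrS (hl 0) a, rad_zero]
  exact (T2.HP.const a 1 p).pd

lemma d_0 (b : Fin (n + 1)) : Stmt.pd 0 (l b) p = 0 := by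
  refine Fin.cases (d_zero hl 0) (fun i => ?_) b
  rw [pd_congrS (hl i.succ) 0, rad_succ]
  exact spd_zero (nc c i) p

lemma d_ev (a b : Fin (n + 1)) : Stmt.pd a (l b) =ᶠ[𝓝 p] Stmt.pd a (rad c b) :=
  (hl b).eventuallyEq_nhds.mono fun _ hq => pd_congrS hq a

lemma dd_zero (a b : Fin (n + 1)) : Stmt.pd a (Stmt.pd b (l 0)) p = 0 := by
  have h1 : Stmt.pd b (l 0) =ᶠ[𝓝 p] fun _ => 0 :=
    (hl 0).eventuallyEq_nhds.mono fun q hq => by
      rw [pd_congrS hq b, rad_zero]
      exact (T2.HP.const b 1 q).pd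
  rw [pd_congrS h1 a]
  exact (T2.HP.const a 0 p).pd

lemma dd_x0 (a b : Fin (n + 1)) : Stmt.pd a (Stmt.pd 0 (l b)) p = 0 := by
  refine Fin.cases (dd_zero hl a 0) (fun i => ?_) b
  have h1 : Stmt.pd 0 (l i.succ) =ᶠ[𝓝 p] fun _ => 0 :=
    (hl i.succ).eventuallyEq_nhds.mono fun q hq => by
      rw [pd_congrS hq 0, rad_succ]
      exact spd_zero (nc c i) q
  rw [pd_congrS h1 a]
  exact (T2.HP.const a 0 p).pd

lemma dd_0x (a b : Fin (n + 1)) : Stmt.pd 0 (Stmt.pd a (l b)) p = 0 := by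
  refine Fin.cases (dd_zero hl 0 a) (fun i => ?_) b
  refine Fin.cases (dd_x0 hl 0 i.succ) (fun j => ?_) a
  have h1 : Stmt.pd j.succ (l i.succ) =ᶠ[𝓝 p] fun q => Stmt.pd j (nc c i) (sp q) :=
    (hl i.succ).eventuallyEq_nhds.mono fun q hq => by
      rw [pd_congrS hq j.succ, rad_succ]
      exact spd_succ (nc c i) q j
  rw [pd_congrS h1 0]
  exact spd_zero (Stmt.pd j (nc c i)) p

include hc

lemma d_succ (j i : Fin n) : Stmt.pd j.succ (l i.succ) p =
    (kd j i - nc c j (sp p) * nc c i (sp p)) / ‖sp p - c‖ := by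
  rw [pd_congrS (hl i.succ) j.succ, rad_succ, spd_succ (nc c i) p j,
    stmt_pd (dp_nc hc j i).1, (dp_nc hc j i).2]

lemma dd_succ (k j i : Fin n) : Stmt.pd k.succ (Stmt.pd j.succ (l i.succ)) p =
    -((kd k j - nc c k (sp p) * nc c j (sp p)) * nc c i (sp p) +
      (kd k i - nc c k (sp p) * nc c i (sp p)) * nc c j (sp p) +
      (kd j i - nc c j (sp p) * nc c i (sp p)) * nc c k (sp p)) / ‖sp p - c‖ ^ 2 := by
  have h1 : Stmt.pd j.succ (l i.succ) =ᶠ[𝓝 p] fun q => Stmt.pd j (nc c i) (sp q) :=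
    (hl i.succ).eventuallyEq_nhds.mono fun q hq => by
      rw [pd_congrS hq j.succ, rad_succ]
      exact spd_succ (nc c i) q j
  rw [pd_congrS h1 k.succ, spd_succ (Stmt.pd j (nc c i)) p k, stmt_pd2 (nc_cd hc i),
    hs_nc hc]

end

/-- The vacuum equations at a point: components. -/
theorem vac (hn : 2 ≤ n) (hK : IsKSg l V p) (hl : ∀ a, l a =ᶠ[𝓝 p] rad c a) (hc : sp p ≠ c)
    (hG : ∀ a b, Gm l V a b p = 0) :
    ((∑ i, nc c i (sp p) * pd i.succ V p) - pd 0 V p = -((n : ℝ) - 2) * V p / ‖sp p - c‖) ∧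
    (hs V 0 0 p - 2 * ∑ i : Fin n, nc c i (sp p) * hs V 0 i.succ p +
        ∑ i : Fin n, ∑ j : Fin n, nc c i (sp p) * nc c j (sp p) * hs V i.succ j.succ p =
      ((n : ℝ) - 1) * (n - 2) * V p / ‖sp p - c‖ ^ 2) ∧
    (∀ v : Fin n → ℝ, ∑ i, nc c i (sp p) * v i = 0 →
      ∑ i, v i * ((∑ j : Fin n, nc c j (sp p) * hs V i.succ j.succ p) - hs V 0 i.succ p) +
        ((n : ℝ) - 2) / ‖sp p - c‖ * ∑ i, v i * pd i.succ V p = 0) ∧
    ((∑ i : Fin n, hs V i.succ i.succ p) -
        (∑ i : Fin n, ∑ j : Fin n, nc c i (sp p) * nc c j (sp p) * hs V i.succ j.succ p) -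
        ((n : ℝ) - 1) / ‖sp p - c‖ * (∑ i, nc c i (sp p) * pd i.succ V p) =
      ((n : ℝ) - 1) / ‖sp p - c‖ * pd 0 V p) := by
  obtain ⟨U, hpU, hU⟩ := toKLg' hK
  have s0 : sgn (0 : Fin (n + 1)) = -1 := rfl
  have ss : ∀ i : Fin n, sgn i.succ = 1 := fun i => by simp [sgn, Fin.succ_ne_zero]
  set r := ‖sp p - c‖ with hr
  have hr0 : r ≠ 0 := norm_ne_zero_iff.2 (ne_sub hc)
  set nn : Fin n → ℝ := fun i => nc c i (sp p) with hnn
  have hnn1 : ∑ i, nn i * nn i = 1 := sum_nc hc
  have e0 : l 0 p = 1 := l_zero hl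
  have e1 : ∀ i : Fin n, l i.succ p = nn i := l_succ hl
  have hV1 : ∀ a, Stmt.pd a V p = pd a V p := fun a => stmt_pd (cdd hK.smV) a
  have hV2 : ∀ a b, Stmt.pd a (Stmt.pd b V) p = hs V a b p := fun a b => stmt_pd2 hK.smV a b
  have hVs : ∀ a b, hs V a b p = hs V b a p := fun a b => by
    rw [← hV2, ← hV2]; exact hU.v2 hpU a b
  have hd00 := d_zero hl
  have hd0 := d_0 hl
  have hds : ∀ j i : Fin n, Stmt.pd j.succ (l i.succ) p = (kd j i - nn j * nn i) / r :=
    d_succ hl hc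
  have hdds : ∀ k j i : Fin n, Stmt.pd k.succ (Stmt.pd j.succ (l i.succ)) p =
      -((kd k j - nn k * nn j) * nn i + (kd k i - nn k * nn i) * nn j +
        (kd j i - nn j * nn i) * nn k) / r ^ 2 := dd_succ hl hc
  have hk1 : ∀ (i : Fin n) (F : Fin n → ℝ), ∑ j, kd i j * F j = F i := by
    intro i F; simp [kd]
  have hkk : ∑ i : Fin n, kd i i = (n : ℝ) := by simp [kd]
  have hks : ∀ i j : Fin n, kd i j = kd j i := by intro i j; unfold kd; simp only [eq_comm]
  -- `Rlin = 0`
  have hgm : ∀ a b, sgn a * Rl sgn l V a b p - (if a = b then 1 else 0) *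
      Stmt.scal (ksL l V) p / 2 = 0 := by
    intro a b; rw [← hU.einM_eq hpU, ← Gm_eq]; exact hG a b
  have hsc : Stmt.scal (ksL l V) p = 0 := by
    have h1 := hU.scal_eq hpU
    have h2 : ∀ a, sgn a * Rl sgn l V a a p = Stmt.scal (ksL l V) p / 2 := by
      intro a; have := hgm a a; rw [if_pos rfl] at this; linarith
    simp only [h2, Finset.sum_const, Finset.card_univ, Fintype.card_fin, nsmul_eq_mul] at h1
    push_cast at h1
    have h3 : ((n : ℝ) - 1) * Stmt.scal (ksL l V) p = 0 := by linarith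
    have h4 : ((n : ℝ) - 1) ≠ 0 := by
      have : (2 : ℝ) ≤ n := by exact_mod_cast hn
      intro h; linarith
    exact (mul_eq_zero.1 h3).resolve_left h4
  have hR : ∀ a b, Rl sgn l V a b p = 0 := by
    intro a b
    have h1 := hgm a b
    rw [hsc, mul_zero, zero_div, sub_zero] at h1
    have h2 : sgn a * (sgn a * Rl sgn l V a b p) = 0 := by rw [h1, mul_zero]
    rw [← mul_assoc, sgn_sq8, one_mul] at h2
    exact h2
  -- `φ` and its derivatives
  set ph := lph sgn l V p with hph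
  set Vn := ∑ i, nn i * pd i.succ V p with hVn
  have hth : lth sgn l p = ((n : ℝ) - 1) / r := by
    unfold lth
    rw [Fin.sum_univ_succ, hd00, mul_zero, zero_add]
    simp only [ss, one_mul, hds, ← Finset.sum_div, Finset.sum_sub_distrib, hkk, hnn1]
  have hlk : lk sgn l V p = Vn - pd 0 V p := by
    unfold lk
    rw [Fin.sum_univ_succ, s0, e0, hV1]
    simp only [ss, one_mul, e1, hV1]
    rw [hVn]; ring
  have hph2 : ph = Vn - pd 0 V p + V p * (((n : ℝ) - 1) / r) := by
    rw [hph]; unfold lph; rw [hlk, hth]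
  -- `∂_0 φ`
  have hph0 : Stmt.pd 0 (lph sgn l V) p = (∑ j : Fin n, nn j * hs V 0 j.succ p) - hs V 0 0 p +
      pd 0 V p * (((n : ℝ) - 1) / r) := by
    rw [hU.pd_lph hpU, hth]
    simp only [hd0, dd_0x hl, mul_zero, Finset.sum_const_zero, hV1, hV2, zero_mul, zero_add]
    rw [Fin.sum_univ_succ, s0, e0]
    simp only [ss, one_mul, e1]
    ring
  -- `∂_i φ`
  have hphi : ∀ i : Fin n, Stmt.pd i.succ (lph sgn l V) p =
      (pd i.succ V p - nn i * Vn) / r + (∑ j : Fin n, nn j * hs V i.succ j.succ p) -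
        hs V 0 i.succ p + pd i.succ V p * (((n : ℝ) - 1) / r) - V p * (((n : ℝ) - 1) * nn i / r ^ 2) := by
    intro i
    rw [hU.pd_lph hpU, hth, Fin.sum_univ_succ, Fin.sum_univ_succ (f := fun c =>
      sgn c * Stmt.pd i.succ (Stmt.pd c (l c)) p), hd00, dd_x0 hl]
    simp only [ss, one_mul, e0, e1, hds, hdds, s0, hV1, hV2]
    have h1 : ∑ x, ((kd i x - nn i * nn x) / r * pd x.succ V p + nn x * hs V i.succ x.succ p) =
        (pd i.succ V p - nn i * Vn) / r + ∑ j : Fin n, nn j * hs V i.succ j.succ p := by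
      rw [Finset.sum_add_distrib]
      congr 1
      have h2 : ∀ x, (kd i x - nn i * nn x) / r * pd x.succ V p =
          (kd i x * pd x.succ V p - nn i * (nn x * pd x.succ V p)) / r := fun x => by ring
      simp only [h2, ← Finset.sum_div, Finset.sum_sub_distrib, hk1 i fun x => pd x.succ V p,
        ← Finset.mul_sum, hVn]
    have h3 : ∑ x, -((kd i x - nn i * nn x) * nn x + (kd i x - nn i * nn x) * nn x +
        (kd x x - nn x * nn x) * nn i) / r ^ 2 = -(((n : ℝ) - 1) * nn i) / r ^ 2 := by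
      rw [← Finset.sum_div]
      congr 1
      have h4 : ∀ x, -((kd i x - nn i * nn x) * nn x + (kd i x - nn i * nn x) * nn x +
          (kd x x - nn x * nn x) * nn i) = -(2 * (kd i x * nn x) - 2 * nn i * (nn x * nn x) +
          nn i * (kd x x) - nn i * (nn x * nn x)) := fun x => by ring
      simp only [h4, Finset.sum_neg_distrib, Finset.sum_sub_distrib, Finset.sum_add_distrib,
        ← Finset.mul_sum, hk1 i fun x => nn x, hnn1, hkk]
      ring
    rw [h1, h3, hVs i.succ 0]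
    ring
  -- `□ V`
  set BV := (∑ i : Fin n, hs V i.succ i.succ p) - hs V 0 0 p with hBV
  have hB : ∀ a b, ∑ c, sgn c * Stmt.pd c (Stmt.pd c (H896.hl l V a b)) p = BV * (l a p * l b p) +
      2 * (∑ j : Fin n, pd j.succ V p * (Stmt.pd j.succ (l a) p * l b p +
        l a p * Stmt.pd j.succ (l b) p)) +
      V p * ((∑ j : Fin n, Stmt.pd j.succ (Stmt.pd j.succ (l a)) p) * l b p +
        2 * (∑ j : Fin n, Stmt.pd j.succ (l a) p * Stmt.pd j.succ (l b) p) +
        l a p * ∑ j : Fin n, Stmt.pd j.succ (Stmt.pd j.succ (l b)) p) := by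
    intro a b
    simp only [hU.pd2_hl hpU, hV1, hV2]
    rw [Fin.sum_univ_succ, s0]
    simp only [hd0, dd_0x hl, ss, one_mul]
    have h1 : ∀ x : Fin n, hs V x.succ x.succ p * (l a p * l b p) +
          pd x.succ V p * (Stmt.pd x.succ (l a) p * l b p + l a p * Stmt.pd x.succ (l b) p) +
        (pd x.succ V p * (Stmt.pd x.succ (l a) p * l b p + l a p * Stmt.pd x.succ (l b) p) +
          V p * ((Stmt.pd x.succ (Stmt.pd x.succ (l a)) p * l b p +
            Stmt.pd x.succ (l a) p * Stmt.pd x.succ (l b) p) +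
            (Stmt.pd x.succ (l a) p * Stmt.pd x.succ (l b) p +
              l a p * Stmt.pd x.succ (Stmt.pd x.succ (l b)) p))) =
        hs V x.succ x.succ p * (l a p * l b p) +
        2 * (pd x.succ V p * (Stmt.pd x.succ (l a) p * l b p + l a p * Stmt.pd x.succ (l b) p)) +
        V p * (Stmt.pd x.succ (Stmt.pd x.succ (l a)) p * l b p +
          2 * (Stmt.pd x.succ (l a) p * Stmt.pd x.succ (l b) p) +
          l a p * Stmt.pd x.succ (Stmt.pd x.succ (l b)) p) := fun x => by ring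
    simp only [h1, Finset.sum_add_distrib, ← Finset.mul_sum, ← Finset.sum_mul, hBV]
    ring
  -- second derivatives of `n_i`
  have hlap : ∀ i : Fin n, ∑ j : Fin n, Stmt.pd j.succ (Stmt.pd j.succ (l i.succ)) p =
      -(((n : ℝ) - 1) * nn i) / r ^ 2 := by
    intro i
    simp only [hdds]
    rw [← Finset.sum_div]
    congr 1
    have h4 : ∀ x, -((kd x x - nn x * nn x) * nn i + (kd x i - nn x * nn i) * nn x +
        (kd x i - nn x * nn i) * nn x) = -(2 * (kd i x * nn x) - 2 * nn i * (nn x * nn x) +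
        nn i * (kd x x) - nn i * (nn x * nn x)) := fun x => by rw [hks x i]; ring
    simp only [h4, Finset.sum_neg_distrib, Finset.sum_sub_distrib, Finset.sum_add_distrib,
      ← Finset.mul_sum, hk1 i fun x => nn x, hnn1, hkk]
    ring
  have hlap0 : ∑ j : Fin n, Stmt.pd j.succ (Stmt.pd j.succ (l 0)) p = 0 :=
    Finset.sum_eq_zero fun j _ => dd_zero hl _ _
  have hPV : ∀ i : Fin n, ∑ j : Fin n, pd j.succ V p * Stmt.pd j.succ (l i.succ) p =
      (pd i.succ V p - nn i * Vn) / r := by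
    intro i
    simp only [hds]
    have h2 : ∀ x, pd x.succ V p * ((kd x i - nn x * nn i) / r) =
        (kd i x * pd x.succ V p - nn i * (nn x * pd x.succ V p)) / r := fun x => by
      rw [hks x i]; ring
    simp only [h2, ← Finset.sum_div, Finset.sum_sub_distrib, hk1 i fun x => pd x.succ V p,
      ← Finset.mul_sum, hVn]
  have hPP : ∀ i k : Fin n, ∑ j : Fin n, Stmt.pd j.succ (l i.succ) p * Stmt.pd j.succ (l k.succ) p =
      (kd i k - nn i * nn k) / r ^ 2 := by
    intro i k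
    simp only [hds]
    have h2 : ∀ x, (kd x i - nn x * nn i) / r * ((kd x k - nn x * nn k) / r) =
        (kd i x * kd x k - nn k * (kd i x * nn x) - nn i * (kd k x * nn x) +
          nn i * nn k * (nn x * nn x)) / r ^ 2 := fun x => by
      rw [hks x i, hks x k]; field_simp; ring
    simp only [h2, ← Finset.sum_div, Finset.sum_sub_distrib, Finset.sum_add_distrib,
      hk1 i fun x => kd x k, hk1 i fun x => nn x, hk1 k fun x => nn x, ← Finset.mul_sum, hnn1]
    ring
  -- the equations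
  have q00 : 2 * Stmt.pd 0 (lph sgn l V) p - BV = 0 := by
    have h1 := hR 0 0
    rw [hU.Rl_eq hpU, hU.pd_phl hpU, hB, hlap0] at h1
    simp only [hd00, e0, mul_zero, zero_mul, Finset.sum_const_zero, add_zero] at h1
    linarith
  have q0i : ∀ i : Fin n, Stmt.pd 0 (lph sgn l V) p * nn i + Stmt.pd i.succ (lph sgn l V) p -
      (BV * nn i + 2 * ((pd i.succ V p - nn i * Vn) / r) -
        V p * (((n : ℝ) - 1) * nn i / r ^ 2)) = 0 := by
    intro i
    have h1 := hR 0 i.succ
    rw [hU.Rl_eq hpU, hU.pd_phl hpU, hU.pd_phl hpU, hB, hlap0, hlap i] at h1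
    simp only [hd00, hd0, e0, e1, mul_zero, zero_mul, Finset.sum_const_zero, add_zero, zero_add,
      one_mul, mul_one, hPV] at h1
    linear_combination 2 * h1
  have qij : ∀ i j : Fin n, Stmt.pd i.succ (lph sgn l V) p * nn j +
      Stmt.pd j.succ (lph sgn l V) p * nn i + 2 * ph * ((kd i j - nn i * nn j) / r) -
      (BV * (nn i * nn j) + 2 * ((pd i.succ V p - nn i * Vn) / r * nn j +
          nn i * ((pd j.succ V p - nn j * Vn) / r)) +
        V p * (2 * ((kd i j - nn i * nn j) / r ^ 2) - 2 * (((n : ℝ) - 1) * (nn i * nn j) / r ^ 2))) =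
        0 := by
    intro i j
    have h1 := hR i.succ j.succ
    rw [hU.Rl_eq hpU, hU.pd_phl hpU, hU.pd_phl hpU, hB, hlap i, hlap j, hPP i j] at h1
    have h2 : ∑ k : Fin n, pd k.succ V p * (Stmt.pd k.succ (l i.succ) p * l j.succ p +
        l i.succ p * Stmt.pd k.succ (l j.succ) p) =
        (pd i.succ V p - nn i * Vn) / r * nn j + nn i * ((pd j.succ V p - nn j * Vn) / r) := by
      rw [← hPV i, ← hPV j, Finset.sum_mul, Finset.mul_sum, ← Finset.sum_add_distrib]
      exact Finset.sum_congr rfl fun k _ => by rw [e1, e1]; ring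
    rw [h2] at h1
    simp only [e1, hds] at h1
    rw [hks j i, ← hph] at h1
    linear_combination 2 * h1
  -- contractions
  set Ph := ∑ i, nn i * Stmt.pd i.succ (lph sgn l V) p with hPh
  set P0 := Stmt.pd 0 (lph sgn l V) p with hP0
  have hnV : ∑ i, nn i * (pd i.succ V p - nn i * Vn) = 0 := by
    have h1 : ∀ i, nn i * (pd i.succ V p - nn i * Vn) = nn i * pd i.succ V p -
        Vn * (nn i * nn i) := fun i => by ring
    simp only [h1, Finset.sum_sub_distrib, ← Finset.mul_sum, hnn1, ← hVn]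
    ring
  have t1 : 2 * Ph + 2 * ph * (((n : ℝ) - 1) / r) - BV = 0 := by
    have h1 : ∑ i, (Stmt.pd i.succ (lph sgn l V) p * nn i +
      Stmt.pd i.succ (lph sgn l V) p * nn i + 2 * ph * ((kd i i - nn i * nn i) / r) -
      (BV * (nn i * nn i) + 2 * ((pd i.succ V p - nn i * Vn) / r * nn i +
          nn i * ((pd i.succ V p - nn i * Vn) / r)) +
        V p * (2 * ((kd i i - nn i * nn i) / r ^ 2) -
          2 * (((n : ℝ) - 1) * (nn i * nn i) / r ^ 2)))) = 0 :=
      Finset.sum_eq_zero fun i _ => qij i i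
    have h2 : ∀ i, (Stmt.pd i.succ (lph sgn l V) p * nn i +
      Stmt.pd i.succ (lph sgn l V) p * nn i + 2 * ph * ((kd i i - nn i * nn i) / r) -
      (BV * (nn i * nn i) + 2 * ((pd i.succ V p - nn i * Vn) / r * nn i +
          nn i * ((pd i.succ V p - nn i * Vn) / r)) +
        V p * (2 * ((kd i i - nn i * nn i) / r ^ 2) -
          2 * (((n : ℝ) - 1) * (nn i * nn i) / r ^ 2)))) =
        2 * (nn i * Stmt.pd i.succ (lph sgn l V) p) + (2 * ph / r - 2 * V p / r ^ 2) * kd i i -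
        (2 * ph / r + BV - 2 * V p * n / r ^ 2) * (nn i * nn i) -
        4 / r * (nn i * (pd i.succ V p - nn i * Vn)) := fun i => by field_simp; ring
    simp only [h2, Finset.sum_sub_distrib, Finset.sum_add_distrib, ← Finset.mul_sum, hnn1, hkk,
      hnV, ← hPh] at h1
    linear_combination h1
  have t2 : 2 * Ph - BV + 2 * V p * ((n : ℝ) - 1) / r ^ 2 = 0 := by
    have h1 : ∀ i, Stmt.pd i.succ (lph sgn l V) p + Ph * nn i - (BV * nn i +
        2 * ((pd i.succ V p - nn i * Vn) / r) - 2 * V p * ((n : ℝ) - 1) / r ^ 2 * nn i) = 0 := by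
      intro i
      have h2 : ∑ j, nn j * (Stmt.pd i.succ (lph sgn l V) p * nn j +
        Stmt.pd j.succ (lph sgn l V) p * nn i + 2 * ph * ((kd i j - nn i * nn j) / r) -
        (BV * (nn i * nn j) + 2 * ((pd i.succ V p - nn i * Vn) / r * nn j +
          nn i * ((pd j.succ V p - nn j * Vn) / r)) +
        V p * (2 * ((kd i j - nn i * nn j) / r ^ 2) -
          2 * (((n : ℝ) - 1) * (nn i * nn j) / r ^ 2)))) = 0 :=
        Finset.sum_eq_zero fun j _ => by rw [qij i j, mul_zero]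
      have h3 : ∀ j, nn j * (Stmt.pd i.succ (lph sgn l V) p * nn j +
        Stmt.pd j.succ (lph sgn l V) p * nn i + 2 * ph * ((kd i j - nn i * nn j) / r) -
        (BV * (nn i * nn j) + 2 * ((pd i.succ V p - nn i * Vn) / r * nn j +
          nn i * ((pd j.succ V p - nn j * Vn) / r)) +
        V p * (2 * ((kd i j - nn i * nn j) / r ^ 2) -
          2 * (((n : ℝ) - 1) * (nn i * nn j) / r ^ 2)))) =
          Stmt.pd i.succ (lph sgn l V) p * (nn j * nn j) +
          nn i * (nn j * Stmt.pd j.succ (lph sgn l V) p) +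
          (2 * ph / r - 2 * V p / r ^ 2) * (kd i j * nn j) -
          (2 * ph / r + BV - 2 * V p * n / r ^ 2) * nn i * (nn j * nn j) -
          2 * ((pd i.succ V p - nn i * Vn) / r) * (nn j * nn j) -
          2 * nn i / r * (nn j * (pd j.succ V p - nn j * Vn)) := fun j => by field_simp; ring
      simp only [h3, Finset.sum_sub_distrib, Finset.sum_add_distrib, ← Finset.mul_sum, hnn1,
        hk1 i fun j => nn j, hnV, ← hPh] at h2
      linear_combination h2
    have h4 : ∑ i, nn i * (Stmt.pd i.succ (lph sgn l V) p + Ph * nn i - (BV * nn i +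
        2 * ((pd i.succ V p - nn i * Vn) / r) - 2 * V p * ((n : ℝ) - 1) / r ^ 2 * nn i)) = 0 :=
      Finset.sum_eq_zero fun i _ => by rw [h1 i, mul_zero]
    have h5 : ∀ i, nn i * (Stmt.pd i.succ (lph sgn l V) p + Ph * nn i - (BV * nn i +
        2 * ((pd i.succ V p - nn i * Vn) / r) - 2 * V p * ((n : ℝ) - 1) / r ^ 2 * nn i)) =
        nn i * Stmt.pd i.succ (lph sgn l V) p +
        (Ph - BV + 2 * V p * ((n : ℝ) - 1) / r ^ 2) * (nn i * nn i) -
        2 / r * (nn i * (pd i.succ V p - nn i * Vn)) := fun i => by ring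
    simp only [h5, Finset.sum_sub_distrib, Finset.sum_add_distrib, ← Finset.mul_sum, hnn1, hnV,
      ← hPh] at h4
    linear_combination h4
  have hn1 : ((n : ℝ) - 1) ≠ 0 := by
    have : (2 : ℝ) ≤ n := by exact_mod_cast hn
    intro h; linarith
  have hphr : ph = V p / r := by
    have h1 : (2 * ((n : ℝ) - 1) / r) * (ph - V p / r) = 0 := by
      linear_combination t1 - t2
    have h2 : (2 * ((n : ℝ) - 1) / r) ≠ 0 := div_ne_zero (mul_ne_zero two_ne_zero hn1) hr0
    have := (mul_eq_zero.1 h1).resolve_left h2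
    linarith
  have c1 : Vn - pd 0 V p = -((n : ℝ) - 2) * V p / r := by
    rw [hphr] at hph2
    field_simp at hph2 ⊢
    linear_combination -hph2
  set S1 := ∑ i : Fin n, nn i * hs V 0 i.succ p with hS1
  set S2 := ∑ i : Fin n, ∑ j : Fin n, nn i * nn j * hs V i.succ j.succ p with hS2
  have hPh2 : Ph = S2 - S1 + Vn * (((n : ℝ) - 1) / r) - V p * (((n : ℝ) - 1) / r ^ 2) := by
    have h1 : ∀ i, nn i * Stmt.pd i.succ (lph sgn l V) p =
        1 / r * (nn i * (pd i.succ V p - nn i * Vn)) +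
        (∑ j : Fin n, nn i * nn j * hs V i.succ j.succ p) - nn i * hs V 0 i.succ p +
        (((n : ℝ) - 1) / r) * (nn i * pd i.succ V p) -
        (V p * (((n : ℝ) - 1) / r ^ 2)) * (nn i * nn i) := by
      intro i
      have h2 : ∑ j : Fin n, nn i * nn j * hs V i.succ j.succ p =
          nn i * ∑ j : Fin n, nn j * hs V i.succ j.succ p := by
        rw [Finset.mul_sum]; exact Finset.sum_congr rfl fun j _ => by ring
      rw [hphi i, h2]; ring
    rw [hPh]
    simp only [h1, Finset.sum_sub_distrib, Finset.sum_add_distrib, ← Finset.mul_sum, hnn1, hnV,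
      ← hS1, ← hVn]
    rw [hS2]
    ring
  have c2 : hs V 0 0 p - 2 * S1 + S2 = ((n : ℝ) - 1) * (n - 2) * V p / r ^ 2 := by
    have h1 : Ph - P0 + V p * ((n : ℝ) - 1) / r ^ 2 = 0 := by
      linear_combination (t2 - q00) / 2
    rw [hPh2, hph0] at h1
    have h2 : S2 - 2 * S1 + hs V 0 0 p + (Vn - pd 0 V p) * (((n : ℝ) - 1) / r) = 0 := by
      linear_combination h1
    rw [c1] at h2
    field_simp at h2 ⊢
    linear_combination h2
  refine ⟨c1, c2, ?_, ?_⟩
  · intro v hv
    have hv' : ∑ i, nn i * v i = 0 := hv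
    have h1 : ∑ i, v i * (P0 * nn i + Stmt.pd i.succ (lph sgn l V) p -
        (BV * nn i + 2 * ((pd i.succ V p - nn i * Vn) / r) -
        V p * (((n : ℝ) - 1) * nn i / r ^ 2))) = 0 :=
      Finset.sum_eq_zero fun i _ => by rw [q0i i, mul_zero]
    have h2 : ∀ i, v i * (P0 * nn i + Stmt.pd i.succ (lph sgn l V) p -
        (BV * nn i + 2 * ((pd i.succ V p - nn i * Vn) / r) -
        V p * (((n : ℝ) - 1) * nn i / r ^ 2))) =
        (P0 - BV + Vn / r) * (nn i * v i) +
        v i * ((∑ j : Fin n, nn j * hs V i.succ j.succ p) - hs V 0 i.succ p) +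
        ((n : ℝ) - 2) / r * (v i * pd i.succ V p) := by
      intro i; rw [hphi i]; field_simp; ring
    simp only [h2, Finset.sum_add_distrib, ← Finset.mul_sum, hv', mul_zero, zero_add] at h1
    exact h1
  · have h1 : BV = 2 * P0 := by linarith
    rw [hBV, hph0] at h1
    have h2 : ∑ i : Fin n, hs V i.succ i.succ p = S2 - ((n : ℝ) - 1) * (n - 2) * V p / r ^ 2 +
        2 * (pd 0 V p * (((n : ℝ) - 1) / r)) := by
      linear_combination h1 - c2
    rw [h2]
    have h3 : Vn = pd 0 V p + -((n : ℝ) - 2) * V p / r := by linarith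
    rw [h3]
    field_simp
    ring

end Vale.Agent.P366.KSL.Rad
end
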