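import Vale.Agent.P366.H896.X1g

/-! Metrics `η + V l ⊗ l` with `l` null and geodesic: the Einstein tensor and its superpotential. -/

open MeasureTheory Metric Filter Topology Set
open scoped ContDiff

noncomputable section
namespace Vale.Agent.P366.H896
open Vale.Agent.P366.Stmt Vale.Agent.P366.T2

variable {m : ℕ}

/-- `g = η + V l ⊗ l` on the open set `U`, where `η` is diagonal with entries `e a = ± 1`. -/
structure KL0 (e : Fin m → ℝ) (g : Field m) (l : Fin m → E m → ℝ) (V : E m → ℝ)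
    (U : Set (E m)) : Prop where
  op : IsOpen U
  he : ∀ a, e a * e a = 1
  sl : ∀ a, CR 5 U (l a)
  sV : CR 5 U V
  hg : ∀ x ∈ U, ∀ a b, g x a b = (if a = b then e a else 0) + V x * (l a x * l b x)

/-- Moreover `l` is null and geodesic. -/
structure KLg (e : Fin m → ℝ) (g : Field m) (l : Fin m → E m → ℝ) (V : E m → ℝ)
    (U : Set (E m)) : Prop extends KL0 e g l V U where
  null : ∀ x ∈ U, ∑ a, e a * (l a x * l a x) = 0
  geo : ∀ x ∈ U, ∀ a, ∑ b, e b * (l b x * pd b (l a) x) = 0

/-- `h_{ab} = V l_a l_b` -/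
def hl (l : Fin m → E m → ℝ) (V : E m → ℝ) (a b : Fin m) (x : E m) : ℝ := V x * (l a x * l b x)

lemma hl_symm (l : Fin m → E m → ℝ) (V : E m → ℝ) (a b : Fin m) : hl l V a b = hl l V b a := by
  funext x; unfold hl; ring

/-- `k(V)` -/
def lk (e : Fin m → ℝ) (l : Fin m → E m → ℝ) (V : E m → ℝ) (x : E m) : ℝ :=
  ∑ a, e a * (l a x * pd a V x)

/-- `θ = ∂_a k^a` -/
def lth (e : Fin m → ℝ) (l : Fin m → E m → ℝ) (x : E m) : ℝ := ∑ a, e a * pd a (l a) x

/-- `φ = ∂_a (V k^a) = k(V) + V θ` -/
def lph (e : Fin m → ℝ) (l : Fin m → E m → ℝ) (V : E m → ℝ) (x : E m) : ℝ :=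
  lk e l V x + V x * lth e l x

/-- `∂_a l_b ∂^b l^a` -/
def lT (e : Fin m → ℝ) (l : Fin m → E m → ℝ) (x : E m) : ℝ :=
  ∑ a, e a * ∑ b, e b * (pd a (l b) x * pd b (l a) x)

/-- `∂_a l_b ∂^a l^b` -/
def lS (e : Fin m → ℝ) (l : Fin m → E m → ℝ) (x : E m) : ℝ :=
  ∑ a, e a * ∑ b, e b * (pd a (l b) x * pd a (l b) x)

/-- `ρ = k(φ) + V ∂_a l_b ∂^a l^b` -/
def lr (e : Fin m → ℝ) (l : Fin m → E m → ℝ) (V : E m → ℝ) (x : E m) : ℝ :=
  lk e l (lph e l V) x + V x * lS e l x

/-- the linearized Ricci tensor of `h` -/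
def Rl (e : Fin m → ℝ) (l : Fin m → E m → ℝ) (V : E m → ℝ) (a b : Fin m) (x : E m) : ℝ :=
  (∑ c, e c * pd c (pd a (hl l V c b)) x + ∑ c, e c * pd c (pd b (hl l V c a)) x -
    ∑ c, e c * pd c (pd c (hl l V a b)) x) / 2

/-- The superpotential `U^{ac}_b = (∂^a h^c_b - ∂^c h^a_b - δ^a_b ∂_d h^{cd} + δ^c_b ∂_d h^{ad}) / 2`,
indices raised with the diagonal metric `e`. -/
def UL (e : Fin m → ℝ) (l : Fin m → E m → ℝ) (V : E m → ℝ) (a c b : Fin m) (x : E m) : ℝ :=
  (e a * e c * (pd a (hl l V c b) x - pd c (hl l V a b) x) -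
    (if a = b then ∑ d, e c * e d * pd d (hl l V c d) x else 0) +
    (if c = b then ∑ d, e a * e d * pd d (hl l V a d) x else 0)) / 2

lemma UL_anti (e : Fin m → ℝ) (l : Fin m → E m → ℝ) (V : E m → ℝ) (a c b : Fin m) (x : E m) :
    UL e l V a c b x = - UL e l V c a b x := by
  unfold UL; ring

namespace KL0

variable {e : Fin m → ℝ} {g : Field m} {l : Fin m → E m → ℝ} {V : E m → ℝ} {U : Set (E m)}
  (h : KL0 e g l V U)
include h

lemma sl0 (a : Fin m) : CU U (l a) := (h.sl a).le (by norm_num)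
lemma sl1' (a b : Fin m) : CR 4 U (pd a (l b)) := (h.sl b).pd h.op a
lemma sl1 (a b : Fin m) : CU U (pd a (l b)) := (h.sl1' a b).le (by norm_num)
lemma sV0 : CU U V := h.sV.le (by norm_num)
lemma sV1' (a : Fin m) : CR 4 U (pd a V) := h.sV.pd h.op a
lemma sV1 (a : Fin m) : CU U (pd a V) := (h.sV1' a).le (by norm_num)

lemma l2 {x : E m} (hx : x ∈ U) (a b c : Fin m) : pd a (pd b (l c)) x = pd b (pd a (l c)) x :=
  pd_comm h.op (h.sl0 c) hx a b
lemma v2 {x : E m} (hx : x ∈ U) (a b : Fin m) : pd a (pd b V) x = pd b (pd a V) x :=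
  pd_comm h.op h.sV0 hx a b

lemma shl (a b : Fin m) : CR 5 U (hl l V a b) := h.sV.mul ((h.sl a).mul (h.sl b))
lemma shl0 (a b : Fin m) : CU U (hl l V a b) := (h.shl a b).le (by norm_num)
lemma shl1 (c a b : Fin m) : CU U (pd c (hl l V a b)) :=
  ((h.shl a b).pd h.op c : CR 4 U _).le (by norm_num)

lemma hp_hl {x : E m} (hx : x ∈ U) (c a b : Fin m) :
    HP c (hl l V a b) (pd c V x * (l a x * l b x) +
      V x * (pd c (l a) x * l b x + l a x * pd c (l b) x)) x :=
  (h.sV0.hp hx c).mul (((h.sl0 a).hp hx c).mul ((h.sl0 b).hp hx c))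

lemma sk' : CR 4 U (lk e l V) :=
  CR.sum _ fun a => (CR.const _).mul (((h.sl a).le (by norm_num)).mul (h.sV1' a))

lemma sth' : CR 4 U (lth e l) := CR.sum _ fun a => (CR.const _).mul (h.sl1' a a)

lemma sph' : CR 4 U (lph e l V) := h.sk'.add ((h.sV.le (by norm_num)).mul h.sth')

/-- second derivatives of `h` -/
lemma pd2_hl {x : E m} (hx : x ∈ U) (d c a b : Fin m) : pd d (pd c (hl l V a b)) x =
    pd d (pd c V) x * (l a x * l b x) +
      pd c V x * (pd d (l a) x * l b x + l a x * pd d (l b) x) +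
    (pd d V x * (pd c (l a) x * l b x + l a x * pd c (l b) x) +
      V x * ((pd d (pd c (l a)) x * l b x + pd c (l a) x * pd d (l b) x) +
        (pd d (l a) x * pd c (l b) x + l a x * pd d (pd c (l b)) x))) := by
  have h2 : HP d (fun y => pd c V y * (l a y * l b y) +
      V y * (pd c (l a) y * l b y + l a y * pd c (l b) y)) _ x :=
    (((h.sV1 c).hp hx d).mul (((h.sl0 a).hp hx d).mul ((h.sl0 b).hp hx d))).add
      ((h.sV0.hp hx d).mul ((((h.sl1 c a).hp hx d).mul ((h.sl0 b).hp hx d)).add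
        (((h.sl0 a).hp hx d).mul ((h.sl1 c b).hp hx d))))
  exact (hp_congrU h.op hx (fun y hy => (h.hp_hl hy c a b).pd) h2).pd

lemma pd_g {x : E m} (hx : x ∈ U) (c a b : Fin m) :
    pd c (fun y => g y a b) x = pd c (hl l V a b) x := by
  have h1 : HP c (fun y => (if a = b then e a else 0) + hl l V a b y)
      (0 + pd c (hl l V a b) x) x := (HP.const c _ x).add ((h.shl0 a b).hp hx c)
  have h2 := (hp_congrU h.op hx (fun y hy => h.hg y hy a b) h1).pd
  rw [h2, zero_add]

/-- The inverse metric. -/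
lemma up_eq {x : E m} (hx : x ∈ U) (hn : ∑ a, e a * (l a x * l a x) = 0)
    (a b : Fin m) :
    up g a b x = (if a = b then e a else 0) - V x * ((e a * l a x) * (e b * l b x)) := by
  set N : Matrix (Fin m) (Fin m) ℝ := Matrix.of fun a b =>
    (if a = b then e a else 0) - V x * ((e a * l a x) * (e b * l b x)) with hN
  have h1 : mat g x * N = 1 := by
    ext a c
    rw [Matrix.mul_apply, Matrix.one_apply]
    have e1 : ∀ b, mat g x a b * N b c = (if a = b then e a * N a c else 0) +
        V x * l a x * (l b x * N b c) := by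
      intro b
      show g x a b * _ = _
      rw [h.hg x hx]
      split_ifs with hab
      · subst hab; ring
      · ring
    simp only [e1, Finset.sum_add_distrib, Finset.sum_ite_eq, Finset.mem_univ, if_true,
      ← Finset.mul_sum]
    have e2 : ∑ b, l b x * N b c = e c * l c x := by
      have e3 : ∀ b, l b x * N b c = (if b = c then e c * l c x else 0) -
          V x * (e c * l c x) * (e b * (l b x * l b x)) := by
        intro b
        show l b x * ((if b = c then e b else 0) -
          V x * ((e b * l b x) * (e c * l c x))) = _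
        split_ifs with hbc
        · subst hbc; ring
        · ring
      simp only [e3, Finset.sum_sub_distrib, Finset.sum_ite_eq', Finset.mem_univ, if_true,
        ← Finset.mul_sum, hn]
      ring
    rw [e2]
    show e a * ((if a = c then e a else 0) - V x * ((e a * l a x) * (e c * l c x))) + _ = _
    have ha := h.he a
    split_ifs with hac
    · subst hac
      linear_combination (1 - V x * l a x * (e a * l a x)) * ha
    · linear_combination (- V x * l a x * (e c * l c x)) * ha
  unfold up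
  rw [Matrix.inv_eq_right_inv h1]
  rfl

/-- The Christoffel symbols, `l` null near the point. -/
theorem chr_eq0 {x : E m} (hx : x ∈ U) (hn : ∑ a, e a * (l a x * l a x) = 0)
    (hn1 : ∀ b, ∑ a, e a * (l a x * pd b (l a) x) = 0) (c a b : Fin m) :
    chr g c a b x = e c * (pd a (hl l V b c) x + pd b (hl l V a c) x - pd c (hl l V a b) x) / 2 +
      V x * (e c * l c x) * (∑ d, e d * (l d x * pd d (hl l V a b) x)) / 2 := by
  have h0 : ∀ a b, ∑ d, e d * (l d x * pd a (hl l V b d) x) = 0 := by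
    intro a b
    have e1 : ∀ d, e d * (l d x * pd a (hl l V b d) x) =
        (pd a V x * l b x + V x * pd a (l b) x) * (e d * (l d x * l d x)) +
        (V x * l b x) * (e d * (l d x * pd a (l d) x)) := by
      intro d; rw [(h.hp_hl hx a b d).pd]; ring
    simp only [e1, Finset.sum_add_distrib, ← Finset.mul_sum, hn, hn1]
    ring
  unfold chr
  have e1 : ∀ d, up g c d x * (pd a (fun y => g y b d) x + pd b (fun y => g y a d) x -
      pd d (fun y => g y a b) x) =
      (if c = d then e c * (pd a (hl l V b c) x + pd b (hl l V a c) x - pd c (hl l V a b) x)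
        else 0) -
      (V x * (e c * l c x)) * (e d * (l d x * pd a (hl l V b d) x)) -
      (V x * (e c * l c x)) * (e d * (l d x * pd b (hl l V a d) x)) +
      (V x * (e c * l c x)) * (e d * (l d x * pd d (hl l V a b) x)) := by
    intro d
    rw [h.up_eq hx hn, h.pd_g hx, h.pd_g hx, h.pd_g hx]
    split_ifs with hcl
    · subst hcl; ring
    · ring
  simp only [e1, Finset.sum_add_distrib, Finset.sum_sub_distrib, Finset.sum_ite_eq,
    Finset.mem_univ, if_true, ← Finset.mul_sum, h0]
  ring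

/-- The Christoffel symbols, `l` null near the point and geodesic. -/
theorem chr_eq1 {x : E m} (hx : x ∈ U) (hn : ∑ a, e a * (l a x * l a x) = 0)
    (hn1 : ∀ b, ∑ a, e a * (l a x * pd b (l a) x) = 0)
    (hg : ∀ a, ∑ b, e b * (l b x * pd b (l a) x) = 0) (c a b : Fin m) :
    chr g c a b x = e c * (pd a (hl l V b c) x + pd b (hl l V a c) x - pd c (hl l V a b) x) / 2 +
      V x * lk e l V x * (e c * l c x) * (l a x * l b x) / 2 := by
  rw [h.chr_eq0 hx hn hn1]
  have e1 : ∀ d, e d * (l d x * pd d (hl l V a b) x) =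
      (e d * (l d x * pd d V x)) * (l a x * l b x) +
      (V x * l b x) * (e d * (l d x * pd d (l a) x)) +
      (V x * l a x) * (e d * (l d x * pd d (l b) x)) := by
    intro d; rw [(h.hp_hl hx d a b).pd]; ring
  simp only [e1, Finset.sum_add_distrib, ← Finset.sum_mul, ← Finset.mul_sum, hg]
  unfold lk
  ring

end KL0

namespace KLg

variable {e : Fin m → ℝ} {g : Field m} {l : Fin m → E m → ℝ} {V : E m → ℝ} {U : Set (E m)}
  (h : KLg e g l V U)
include h

/-- first derivative of the null condition -/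
lemma null1 {x : E m} (hx : x ∈ U) (b : Fin m) :
    ∑ a, e a * (l a x * pd b (l a) x) = 0 := by
  have h1 : HP b (fun y => ∑ a, e a * (l a y * l a y))
      (∑ a, e a * (pd b (l a) x * l a x + l a x * pd b (l a) x)) x :=
    HP.sum _ fun a _ => (((h.sl0 a).hp hx b).mul ((h.sl0 a).hp hx b)).const_mul (e a)
  have h2 : HP b (fun y => ∑ a, e a * (l a y * l a y)) 0 x :=
    hp_congrU h.op hx h.null (HP.const b 0 x)
  have h3 := h1.pd.symm.trans h2.pd
  have h4 : ∑ a, e a * (pd b (l a) x * l a x + l a x * pd b (l a) x) =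
      2 * ∑ a, e a * (l a x * pd b (l a) x) := by
    rw [Finset.mul_sum]; exact Finset.sum_congr rfl fun a _ => by ring
  linarith

/-- second derivative of the null condition -/
lemma null2 {x : E m} (hx : x ∈ U) (b c : Fin m) :
    ∑ a, e a * (l a x * pd b (pd c (l a)) x) =
      - ∑ a, e a * (pd b (l a) x * pd c (l a) x) := by
  have h1 : HP b (fun y => ∑ a, e a * (l a y * pd c (l a) y))
      (∑ a, e a * (pd b (l a) x * pd c (l a) x + l a x * pd b (pd c (l a)) x)) x :=
    HP.sum _ fun a _ => (((h.sl0 a).hp hx b).mul ((h.sl1 c a).hp hx b)).const_mul (e a)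
  have h2 : HP b (fun y => ∑ a, e a * (l a y * pd c (l a) y)) 0 x :=
    hp_congrU h.op hx (fun y hy => h.null1 hy c) (HP.const b 0 x)
  have h3 := h1.pd.symm.trans h2.pd
  simp only [mul_add, Finset.sum_add_distrib] at h3
  linarith

/-- derivative of the geodesic equation -/
lemma geo1 {x : E m} (hx : x ∈ U) (c a : Fin m) :
    ∑ b, e b * (l b x * pd b (pd c (l a)) x) =
      - ∑ b, e b * (pd c (l b) x * pd b (l a) x) := by
  have h1 : HP c (fun y => ∑ b, e b * (l b y * pd b (l a) y))
      (∑ b, e b * (pd c (l b) x * pd b (l a) x + l b x * pd c (pd b (l a)) x)) x :=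
    HP.sum _ fun b _ => (((h.sl0 b).hp hx c).mul ((h.sl1 b a).hp hx c)).const_mul (e b)
  have h2 : HP c (fun y => ∑ b, e b * (l b y * pd b (l a) y)) 0 x :=
    hp_congrU h.op hx (fun y hy => h.geo y hy a) (HP.const c 0 x)
  have h3 := h1.pd.symm.trans h2.pd
  have h4 : ∀ b, pd c (pd b (l a)) x = pd b (pd c (l a)) x := fun b => h.l2 hx c b a
  simp only [h4, mul_add, Finset.sum_add_distrib] at h3
  linarith

theorem chr_eq {x : E m} (hx : x ∈ U) (c a b : Fin m) :
    chr g c a b x = e c * (pd a (hl l V b c) x + pd b (hl l V a c) x - pd c (hl l V a b) x) / 2 +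
      V x * lk e l V x * (e c * l c x) * (l a x * l b x) / 2 :=
  h.toKL0.chr_eq1 hx (h.null x hx) (h.null1 hx) (h.geo x hx) c a b

/-- `∂_d h^d_c = φ l_c` -/
lemma div_hl {x : E m} (hx : x ∈ U) (c : Fin m) :
    ∑ d, e d * pd d (hl l V c d) x = lph e l V x * l c x := by
  have e1 : ∀ d, e d * pd d (hl l V c d) x = (e d * (l d x * pd d V x)) * l c x +
      V x * (e d * (l d x * pd d (l c) x)) + (V x * l c x) * (e d * pd d (l d) x) := by
    intro d; rw [(h.hp_hl hx d c d).pd]; ring
  simp only [e1, Finset.sum_add_distrib, ← Finset.sum_mul, ← Finset.mul_sum, h.geo x hx]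
  unfold lph lk lth; ring

/-- `k(θ) = - ∂_a l_b ∂^b l^a` -/
lemma k_th {x : E m} (hx : x ∈ U) : lk e l (lth e l) x = - lT e l x := by
  have h1 : ∀ a, pd a (lth e l) x = ∑ c, e c * pd a (pd c (l c)) x := fun a =>
    (HP.sum _ fun c _ => ((h.sl1 c c).hp hx a).const_mul (e c) :
      HP a (lth e l) (∑ c, e c * pd a (pd c (l c)) x) x).pd
  unfold lk lT
  have h2 : ∀ a, e a * (l a x * pd a (lth e l) x) =
      ∑ c, e c * (e a * (l a x * pd a (pd c (l c)) x)) := by
    intro a; rw [h1, Finset.mul_sum, Finset.mul_sum]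
    exact Finset.sum_congr rfl fun c _ => by ring
  simp only [h2]
  rw [Finset.sum_comm]
  simp only [← Finset.mul_sum, h.geo1 hx]
  rw [← Finset.sum_neg_distrib]
  exact Finset.sum_congr rfl fun c _ => by ring

/-- `k(φ)` -/
lemma k_ph {x : E m} (hx : x ∈ U) : lk e l (lph e l V) x =
    lk e l (lk e l V) x + lk e l V x * lth e l x - V x * lT e l x := by
  have h1 : ∀ a, pd a (lph e l V) x = pd a (lk e l V) x +
      (pd a V x * lth e l x + V x * pd a (lth e l) x) := by
    intro a
    have h2 : HP a (lph e l V) _ x := ((h.sk'.le (by norm_num) : CU U _).hp hx a).add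
      ((h.sV0.hp hx a).mul ((h.sth'.le (by norm_num) : CU U _).hp hx a))
    exact h2.pd
  have e1 : lk e l (lph e l V) x = lk e l (lk e l V) x + lk e l V x * lth e l x +
      V x * lk e l (lth e l) x := by
    unfold lk
    rw [Finset.sum_mul, Finset.mul_sum, ← Finset.sum_add_distrib, ← Finset.sum_add_distrib]
    refine Finset.sum_congr rfl fun a _ => ?_
    have := h1 a
    unfold lk at this
    rw [this]; ring
  rw [e1, h.k_th hx]; ring

/-- `k^a □ h_{ab} = - V |∂l|² l_b` -/
lemma k_box {x : E m} (hx : x ∈ U) (b : Fin m) :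
    ∑ a, (e a * l a x) * ∑ c, e c * pd c (pd c (hl l V a b)) x = - (V x * lS e l x * l b x) := by
  have e1 : ∀ a, (e a * l a x) * ∑ c, e c * pd c (pd c (hl l V a b)) x =
      ∑ c, e c * ((pd c (pd c V) x * l b x + 2 * (pd c V x * pd c (l b) x) +
          V x * pd c (pd c (l b)) x) * (e a * (l a x * l a x)) +
        (2 * (pd c V x * l b x) + 2 * (V x * pd c (l b) x)) * (e a * (l a x * pd c (l a) x)) +
        (V x * l b x) * (e a * (l a x * pd c (pd c (l a)) x))) := by
    intro a
    rw [Finset.mul_sum]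
    refine Finset.sum_congr rfl fun c _ => ?_
    rw [h.pd2_hl hx]; ring
  simp only [e1]
  rw [Finset.sum_comm]
  simp only [← Finset.mul_sum, Finset.sum_add_distrib, h.null x hx, h.null1 hx, h.null2 hx]
  unfold lS
  rw [← neg_mul, ← mul_neg, mul_comm (V x), mul_assoc, Finset.sum_congr rfl (fun c _ => ?_)]
  rotate_left
  · exact fun c => (- (V x * l b x)) * (e c * ∑ a, e a * (pd c (l a) x * pd c (l a) x))
  · ring
  rw [← Finset.mul_sum]; ring

/-- `∂_c ∂_a h^c_b = ∂_a (φ l_b)` -/
lemma div2 {x : E m} (hx : x ∈ U) (a b : Fin m) :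
    ∑ c, e c * pd c (pd a (hl l V c b)) x = pd a (fun y => lph e l V y * l b y) x := by
  have e1 : HP a (fun y => ∑ c, e c * pd c (hl l V b c) y)
      (∑ c, e c * pd a (pd c (hl l V b c)) x) x :=
    HP.sum _ fun c _ => ((h.shl1 c b c).hp hx a).const_mul _
  have e2 := (hp_congrU h.op hx (fun y hy => (h.div_hl hy b).symm) e1).pd
  rw [e2]
  refine Finset.sum_congr rfl fun c _ => ?_
  rw [hl_symm l V c b, pd_comm h.op (h.shl0 b c) hx a c]

lemma sph : CU U (lph e l V) := h.sph'.le (by norm_num)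

lemma pd_phl {x : E m} (hx : x ∈ U) (a b : Fin m) : pd a (fun y => lph e l V y * l b y) x =
    pd a (lph e l V) x * l b x + lph e l V x * pd a (l b) x :=
  ((h.sph.hp hx a).mul ((h.sl0 b).hp hx a)).pd

lemma Rl_eq {x : E m} (hx : x ∈ U) (a b : Fin m) : Rl e l V a b x =
    (pd a (fun y => lph e l V y * l b y) x + pd b (fun y => lph e l V y * l a y) x -
      ∑ c, e c * pd c (pd c (hl l V a b)) x) / 2 := by
  unfold Rl
  rw [h.div2 hx, h.div2 hx]

lemma Rl_symm {x : E m} (hx : x ∈ U) (a b : Fin m) : Rl e l V a b x = Rl e l V b a x := by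
  rw [h.Rl_eq hx, h.Rl_eq hx, hl_symm l V a b]; ring

/-- `k^b Rlin_{ab} = ρ l_a / 2` -/
lemma Rl_k {x : E m} (hx : x ∈ U) (a : Fin m) :
    ∑ b, (e b * l b x) * Rl e l V a b x = lr e l V x * l a x / 2 := by
  have e1 : ∀ b, (e b * l b x) * Rl e l V a b x =
      (pd a (lph e l V) x / 2) * (e b * (l b x * l b x)) +
      (lph e l V x / 2) * (e b * (l b x * pd a (l b) x)) +
      (e b * (l b x * pd b (lph e l V) x)) * (l a x / 2) +
      (lph e l V x / 2) * (e b * (l b x * pd b (l a) x)) -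
      ((e b * l b x) * ∑ c, e c * pd c (pd c (hl l V b a)) x) / 2 := by
    intro b
    rw [h.Rl_eq hx, h.pd_phl hx, h.pd_phl hx, hl_symm l V b a]; ring
  simp only [e1, Finset.sum_add_distrib, Finset.sum_sub_distrib, ← Finset.mul_sum,
    ← Finset.sum_mul, ← Finset.sum_div, h.null x hx, h.null1 hx, h.geo x hx, h.k_box hx]
  unfold lr
  have : ∑ b, e b * (l b x * pd b (lph e l V) x) = lk e l (lph e l V) x := rfl
  rw [this]
  ring

end KLg

end Vale.Agent.P366.H896
end
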