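import Vale.Agent.P366.H896.L.X1a

/-! Metrics `η + V l ⊗ l` with `l` null and geodesic: the Einstein tensor and its superpotential. -/

open MeasureTheory Metric Filter Topology Set
open scoped ContDiff

noncomputable section
namespace Vale.Agent.P366.H896
open Vale.Agent.P366.Stmt Vale.Agent.P366.T2

variable {m : ℕ}

namespace KLg

variable {e : Fin m → ℝ} {g : Field m} {l : Fin m → E m → ℝ} {V : E m → ℝ} {U : Set (E m)}
  (h : KLg e g l V U)
include h

/-- the flat part of the Christoffel symbols has no trace -/
lemma tr0 {x : E m} (hx : x ∈ U) (b : Fin m) : ∑ c, e c * pd b (hl l V c c) x = 0 := by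
  have e1 : ∀ c, e c * pd b (hl l V c c) x = pd b V x * (e c * (l c x * l c x)) +
      (2 * V x) * (e c * (l c x * pd b (l c) x)) := by
    intro c; rw [(h.hp_hl hx b c c).pd]; ring
  simp only [e1, Finset.sum_add_distrib, ← Finset.mul_sum, h.null x hx, h.null1 hx]
  ring

lemma chr_tr {x : E m} (hx : x ∈ U) (a : Fin m) : ∑ c, chr g c a c x = 0 := by
  have e1 : ∀ c, chr g c a c x = e c * pd a (hl l V c c) x / 2 +
      (V x * lk e l V x * l a x / 2) * (e c * (l c x * l c x)) := by
    intro c; rw [h.chr_eq hx, hl_symm l V a c]; ring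
  simp only [e1, Finset.sum_add_distrib, ← Finset.sum_div, ← Finset.mul_sum, h.tr0 hx,
    h.null x hx]
  ring

lemma chr_symm {x : E m} (hx : x ∈ U) (c a b : Fin m) : chr g c a b x = chr g c b a x := by
  rw [h.chr_eq hx, h.chr_eq hx, hl_symm l V a b]; ring

lemma chr_tr' {x : E m} (hx : x ∈ U) (a : Fin m) : ∑ c, chr g c c a x = 0 := by
  rw [← h.chr_tr hx a]
  exact Finset.sum_congr rfl fun c _ => h.chr_symm hx c c a

lemma hp_chr {x : E m} (hx : x ∈ U) (d c a b : Fin m) : HP d (chr g c a b)
    (e c * (pd d (pd a (hl l V b c)) x + pd d (pd b (hl l V a c)) x -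
        pd d (pd c (hl l V a b)) x) * (1 / 2) +
      (((pd d V x * lk e l V x + V x * pd d (lk e l V) x) * (e c * l c x) +
        (V x * lk e l V x) * (e c * pd d (l c) x)) * (l a x * l b x) +
        (V x * lk e l V x) * (e c * l c x) * (pd d (l a) x * l b x + l a x * pd d (l b) x)) *
        (1 / 2)) x := by
  have h1 : HP d (fun y => e c * (pd a (hl l V b c) y + pd b (hl l V a c) y -
        pd c (hl l V a b) y) * (1 / 2) +
      V y * lk e l V y * (e c * l c y) * (l a y * l b y) * (1 / 2)) _ x :=
    ((((((h.shl1 a b c).hp hx d).add ((h.shl1 b a c).hp hx d)).sub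
      ((h.shl1 c a b).hp hx d)).const_mul (e c)).mul (HP.const d (1 / 2) x)).add
    (((((h.sV0.hp hx d).mul ((h.sk'.le (by norm_num) : CU U _).hp hx d)).mul
      (((h.sl0 c).hp hx d).const_mul (e c))).mul
        (((h.sl0 a).hp hx d).mul ((h.sl0 b).hp hx d))).mul (HP.const d (1 / 2) x))
  have h2 := hp_congrU h.op hx (fun y hy => by
    rw [h.chr_eq hy]; ring : ∀ y ∈ U, chr g c a b y = e c * (pd a (hl l V b c) y +
      pd b (hl l V a c) y - pd c (hl l V a b) y) * (1 / 2) +
      V y * lk e l V y * (e c * l c y) * (l a y * l b y) * (1 / 2)) h1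
  convert h2 using 1
  ring

/-- The divergence of the Christoffel symbols. -/
lemma div_chr {x : E m} (hx : x ∈ U) (a b : Fin m) :
    ∑ c, pd c (chr g c a b) x = Rl e l V a b x +
      (lk e l V x ^ 2 + V x * lk e l (lk e l V) x + V x * lk e l V x * lth e l x) *
        (l a x * l b x) / 2 := by
  have e1 : ∀ c, pd c (chr g c a b) x = (e c * pd c (pd b (hl l V c a)) x +
        e c * pd c (pd a (hl l V c b)) x - e c * pd c (pd c (hl l V a b)) x) / 2 +
      (e c * (l c x * pd c V x)) * (lk e l V x * (l a x * l b x) / 2) +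
      (e c * (l c x * pd c (lk e l V) x)) * (V x * (l a x * l b x) / 2) +
      (e c * pd c (l c) x) * (V x * lk e l V x * (l a x * l b x) / 2) +
      (V x * lk e l V x / 2) * l b x * (e c * (l c x * pd c (l a) x)) +
      (V x * lk e l V x / 2) * l a x * (e c * (l c x * pd c (l b) x)) := by
    intro c
    rw [(h.hp_chr hx c c a b).pd, hl_symm l V b c, hl_symm l V a c]
    ring
  simp only [e1, Finset.sum_add_distrib, Finset.sum_sub_distrib, ← Finset.sum_mul,
    ← Finset.mul_sum, ← Finset.sum_div, h.geo x hx]
  have e2 : ∑ c, e c * (l c x * pd c (lk e l V) x) = lk e l (lk e l V) x := rfl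
  have e3 : ∑ c, e c * (l c x * pd c V x) = lk e l V x := rfl
  have e4 : ∑ c, e c * pd c (l c) x = lth e l x := rfl
  rw [e2, e3, e4]
  unfold Rl
  ring

/-- The quadratic term of the Ricci tensor. -/
lemma quad {x : E m} (hx : x ∈ U) (a b : Fin m) :
    ∑ c, ∑ d, chr g c b d x * chr g d a c x =
      (lk e l V x ^ 2 - V x ^ 2 * (lS e l x - lT e l x)) * (l a x * l b x) / 2 := by
  set u : Fin m → Fin m → ℝ := fun b d => pd b V x * l d x + pd d V x * l b x +
    V x * pd b (l d) x + V x * pd d (l b) x + V x * lk e l V x * (l b x * l d x) with hu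
  set v : Fin m → Fin m → ℝ := fun b c => V x * pd b (l c) x - V x * pd c (l b) x -
    pd c V x * l b x with hv
  set om : Fin m → Fin m → ℝ := fun d c => pd d (l c) x - pd c (l d) x with hom
  have hc : ∀ c b d, chr g c b d x =
      e c * (l c x * u b d + v b c * l d x + V x * l b x * om d c) / 2 := by
    intro c b d
    rw [h.chr_eq hx, (h.hp_hl hx b d c).pd, (h.hp_hl hx d b c).pd, (h.hp_hl hx c b d).pd]
    simp only [hu, hv, hom]
    ring
  have lu : ∀ b, ∑ d, e d * (l d x * u b d) = lk e l V x * l b x := by
    intro b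
    have e1 : ∀ d, e d * (l d x * u b d) = (pd b V x + V x * lk e l V x * l b x) *
        (e d * (l d x * l d x)) + (e d * (l d x * pd d V x)) * l b x +
        V x * (e d * (l d x * pd b (l d) x)) + V x * (e d * (l d x * pd d (l b) x)) := by
      intro d; simp only [hu]; ring
    simp only [e1, Finset.sum_add_distrib, ← Finset.sum_mul, ← Finset.mul_sum, h.geo x hx,
      h.null x hx, h.null1 hx]
    unfold lk; ring
  have lv : ∀ b, ∑ d, e d * (l d x * v b d) = - (lk e l V x * l b x) := by
    intro b
    have e1 : ∀ d, e d * (l d x * v b d) =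
        V x * (e d * (l d x * pd b (l d) x)) - V x * (e d * (l d x * pd d (l b) x)) -
        (e d * (l d x * pd d V x)) * l b x := by
      intro d; simp only [hv]; ring
    simp only [e1, Finset.sum_sub_distrib, ← Finset.sum_mul, ← Finset.mul_sum, h.geo x hx,
      h.null1 hx]
    unfold lk; ring
  have lom : ∀ c, ∑ d, e d * (l d x * om d c) = 0 := by
    intro c
    have e1 : ∀ d, e d * (l d x * om d c) =
        e d * (l d x * pd d (l c) x) - e d * (l d x * pd c (l d) x) := by
      intro d; simp only [hom]; ring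
    simp only [e1, Finset.sum_sub_distrib, h.geo x hx, h.null1 hx]
    ring
  have omo : ∀ c d, om c d = - om d c := by intro c d; simp only [hom]; ring
  have hoo : ∑ c, ∑ d, e c * (e d * (om c d * om d c)) = - (2 * (lS e l x - lT e l x)) := by
    have e1 : ∀ c d, e c * (e d * (om c d * om d c)) =
        e c * (e d * (pd c (l d) x * pd d (l c) x)) +
        e d * (e c * (pd d (l c) x * pd c (l d) x)) -
        e c * (e d * (pd c (l d) x * pd c (l d) x)) -
        e d * (e c * (pd d (l c) x * pd d (l c) x)) := by
      intro c d; simp only [hom]; ring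
    have e2 : ∑ c, ∑ d, e d * (e c * (pd d (l c) x * pd c (l d) x)) = lT e l x := by
      rw [Finset.sum_comm]; unfold lT
      simp only [← Finset.mul_sum]
    have e3 : ∑ c, ∑ d, e d * (e c * (pd d (l c) x * pd d (l c) x)) = lS e l x := by
      rw [Finset.sum_comm]; unfold lS
      simp only [← Finset.mul_sum]
    have e4 : ∑ c, ∑ d, e c * (e d * (pd c (l d) x * pd d (l c) x)) = lT e l x := by
      unfold lT
      simp only [← Finset.mul_sum]
    have e5 : ∑ c, ∑ d, e c * (e d * (pd c (l d) x * pd c (l d) x)) = lS e l x := by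
      unfold lS
      simp only [← Finset.mul_sum]
    simp only [e1, Finset.sum_add_distrib, Finset.sum_sub_distrib, e2, e3, e4, e5]
    ring
  have h1 : ∀ c d, chr g c b d x * chr g d a c x =
      (e c * ((l c x * u a c) * (e d * (l d x * u b d))) +
        e c * ((v b c * u a c) * (e d * (l d x * l d x))) +
        e c * ((l c x * v b c) * (e d * (l d x * v a d))) -
        e c * ((V x * l a x * v b c) * (e d * (l d x * om d c))) +
        e c * ((V x * l b x * u a c) * (e d * (l d x * om d c))) +
        V x ^ 2 * (l a x * l b x) * (e c * (e d * (om c d * om d c)))) / 4 +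
      (e d * ((u b d * v a d) * (e c * (l c x * l c x))) +
        e d * ((u b d * (V x * l a x)) * (e c * (l c x * om c d))) -
        e d * ((v a d * (V x * l b x)) * (e c * (l c x * om c d)))) / 4 := by
    intro c d
    rw [hc, hc, omo d c]; ring
  simp only [h1, Finset.sum_add_distrib]
  have z2 : ∑ c, ∑ d, (e d * ((u b d * v a d) * (e c * (l c x * l c x))) +
        e d * ((u b d * (V x * l a x)) * (e c * (l c x * om c d))) -
        e d * ((v a d * (V x * l b x)) * (e c * (l c x * om c d)))) / 4 = 0 := by
    rw [Finset.sum_comm]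
    simp only [← Finset.sum_div, Finset.sum_add_distrib, Finset.sum_sub_distrib,
      ← Finset.mul_sum, h.null x hx, lom]
    simp
  rw [z2]
  simp only [← Finset.sum_div, Finset.sum_add_distrib, Finset.sum_sub_distrib, ← Finset.mul_sum,
    h.null x hx, lom, lu, lv]
  have e6 : ∀ c, e c * (l c x * u a c * (lk e l V x * l b x)) =
      (e c * (l c x * u a c)) * (lk e l V x * l b x) := fun c => by ring
  have e7 : ∀ c, e c * (l c x * v b c * -(lk e l V x * l a x)) =
      (e c * (l c x * v b c)) * (-(lk e l V x * l a x)) := fun c => by ring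
  simp only [e6, e7, ← Finset.sum_mul, lu, lv, mul_zero, Finset.sum_const_zero]
  have e8 : ∑ c, e c * ∑ d, e d * (om c d * om d c) = - (2 * (lS e l x - lT e l x)) := by
    rw [← hoo]
    simp only [← Finset.mul_sum]
  rw [e8]
  ring

theorem ric_eq {x : E m} (hx : x ∈ U) (a b : Fin m) :
    ric g a b x = Rl e l V a b x + V x * lr e l V x * (l a x * l b x) / 2 := by
  have h1 : ∑ k, pd b (chr g k a k) x = 0 := by
    have e1 : HP b (fun y => ∑ k, chr g k a k y) _ x :=
      HP.sum _ fun k _ => h.hp_chr hx b k a k
    have e2 : HP b (fun y => ∑ k, chr g k a k y) 0 x :=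
      hp_congrU h.op hx (fun y hy => h.chr_tr hy a) (HP.const b 0 x)
    rw [← e1.pd.symm.trans e2.pd]
    exact Finset.sum_congr rfl fun k _ => (h.hp_chr hx b k a k).pd
  have h2 : ∑ k, ∑ l, chr g k k l x * chr g l a b x = 0 := by
    rw [Finset.sum_comm]
    simp only [← Finset.sum_mul, h.chr_tr' hx, zero_mul, Finset.sum_const_zero]
  unfold ric
  simp only [Finset.sum_add_distrib, Finset.sum_sub_distrib, h1, h2, h.quad hx, h.div_chr hx]
  unfold lr
  rw [h.k_ph hx]
  ring

lemma ric_symm {x : E m} (hx : x ∈ U) (a b : Fin m) : ric g a b x = ric g b a x := by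
  rw [h.ric_eq hx, h.ric_eq hx, h.Rl_symm hx]; ring

lemma ric_k {x : E m} (hx : x ∈ U) (a : Fin m) : ∑ b, (e b * l b x) * ric g a b x =
    lr e l V x * l a x / 2 := by
  have e1 : ∀ b, (e b * l b x) * ric g a b x = (e b * l b x) * Rl e l V a b x +
      (V x * lr e l V x * l a x / 2) * (e b * (l b x * l b x)) := by
    intro b; rw [h.ric_eq hx]; ring
  simp only [e1, Finset.sum_add_distrib, ← Finset.mul_sum, h.null x hx, h.Rl_k hx]
  ring

/-- `R = Σ e_a Rlin_{aa}` -/
theorem scal_eq {x : E m} (hx : x ∈ U) : scal g x = ∑ a, e a * Rl e l V a a x := by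
  rw [scal_ric]
  have e1 : ∀ a, ∑ b, up g a b x * ric g a b x = e a * ric g a a x -
      (V x * (e a * l a x)) * (lr e l V x * l a x / 2) := by
    intro a
    rw [← h.ric_k hx a]
    have e2 : ∀ b, up g a b x * ric g a b x = (if a = b then e a * ric g a a x else 0) -
        (V x * (e a * l a x)) * ((e b * l b x) * ric g a b x) := by
      intro b
      rw [h.up_eq hx (h.null x hx)]
      split_ifs with hab
      · subst hab; ring
      · ring
    simp only [e2, Finset.sum_sub_distrib, Finset.sum_ite_eq, Finset.mem_univ, if_true,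
      ← Finset.mul_sum]
  have e3 : ∀ a, e a * ric g a a x - (V x * (e a * l a x)) * (lr e l V x * l a x / 2) =
      e a * Rl e l V a a x := by
    intro a; rw [h.ric_eq hx]; ring
  simp only [e1, e3]

/-- `R = ∂_a (φ k^a)` -/
theorem scal_eq' {x : E m} (hx : x ∈ U) :
    scal g x = ∑ a, e a * pd a (fun y => lph e l V y * l a y) x := by
  rw [h.scal_eq hx]
  have e1 : ∀ a, e a * Rl e l V a a x = e a * pd a (fun y => lph e l V y * l a y) x -
      (e a * ∑ c, e c * pd c (pd c (hl l V a a)) x) / 2 := by
    intro a; rw [h.Rl_eq hx]; ring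
  have e2 : ∑ a, e a * ∑ c, e c * pd c (pd c (hl l V a a)) x = 0 := by
    have e3 : ∀ a, e a * ∑ c, e c * pd c (pd c (hl l V a a)) x =
        ∑ c, e c * (pd c (pd c V) x * (e a * (l a x * l a x)) +
          (4 * pd c V x) * (e a * (l a x * pd c (l a) x)) +
          (2 * V x) * (e a * (l a x * pd c (pd c (l a)) x)) +
          (2 * V x) * (e a * (pd c (l a) x * pd c (l a) x))) := by
      intro a
      rw [Finset.mul_sum]
      refine Finset.sum_congr rfl fun c _ => ?_
      rw [h.pd2_hl hx]; ring
    simp only [e3]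
    rw [Finset.sum_comm]
    simp only [← Finset.mul_sum, Finset.sum_add_distrib, h.null x hx, h.null1 hx, h.null2 hx]
    refine Finset.sum_eq_zero fun c _ => ?_
    ring
  simp only [e1, Finset.sum_sub_distrib, ← Finset.sum_div, e2]
  ring

lemma g_k {x : E m} (hx : x ∈ U) (b : Fin m) : ∑ a, (e a * l a x) * g x a b = l b x := by
  have e1 : ∀ a, (e a * l a x) * g x a b = (if a = b then l b x else 0) +
      (V x * l b x) * (e a * (l a x * l a x)) := by
    intro a
    rw [h.hg x hx]
    split_ifs with hab
    · subst hab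
      linear_combination (l a x) * h.he a
    · ring
  simp only [e1, Finset.sum_add_distrib, Finset.sum_ite_eq', Finset.mem_univ, if_true,
    ← Finset.mul_sum, h.null x hx]
  ring

/-- **(b) The Einstein tensor on `k`.** -/
theorem ein_k {x : E m} (hx : x ∈ U) (b : Fin m) : ∑ a, (e a * l a x) * ein g a b x =
    (lr e l V x - scal g x) / 2 * l b x := by
  have e1 : ∀ a, (e a * l a x) * ein g a b x = (e a * l a x) * ric g b a x -
      scal g x / 2 * ((e a * l a x) * g x a b) := by
    intro a; unfold ein; rw [h.ric_symm hx a b]; ring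
  simp only [e1, Finset.sum_sub_distrib, ← Finset.mul_sum, h.ric_k hx, h.g_k hx]
  ring

lemma g_symm {x : E m} (hx : x ∈ U) (a b : Fin m) : g x a b = g x b a := by
  rw [h.hg x hx, h.hg x hx]
  by_cases hab : a = b
  · subst hab; rfl
  · rw [if_neg hab, if_neg (Ne.symm hab)]; ring

lemma ein_symm {x : E m} (hx : x ∈ U) (a b : Fin m) : ein g a b x = ein g b a x := by
  unfold ein; rw [h.ric_symm hx, h.g_symm hx a b]

/-- the mixed Einstein tensor is linear in `h` -/
theorem einM_eq {x : E m} (hx : x ∈ U) (a b : Fin m) : einM g a b x =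
    e a * Rl e l V a b x - (if a = b then 1 else 0) * scal g x / 2 := by
  have h2 : einM g a b x = e a * ein g a b x - V x * (e a * l a x) *
      ((lr e l V x - scal g x) / 2 * l b x) := by
    unfold einM
    have e1 : ∀ d, up g a d x * ein g d b x = (if a = d then e a * ein g a b x else 0) -
        (V x * (e a * l a x)) * ((e d * l d x) * ein g d b x) := by
      intro d
      rw [h.up_eq hx (h.null x hx)]
      split_ifs with hd
      · subst hd; ring
      · ring
    simp only [e1, Finset.sum_sub_distrib, Finset.sum_ite_eq, Finset.mem_univ, if_true,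
      ← Finset.mul_sum, h.ein_k hx]
  rw [h2]
  unfold ein
  rw [h.ric_eq hx, h.hg x hx]
  have hea := h.he a
  by_cases hab : a = b
  · subst hab
    simp only [if_true]
    linear_combination (-(scal g x) / 2) * hea
  · simp only [if_neg hab]
    ring

lemma hp_UL {x : E m} (hx : x ∈ U) (a c b : Fin m) : HP c (UL e l V a c b)
    ((e a * e c * (pd c (pd a (hl l V c b)) x - pd c (pd c (hl l V a b)) x) -
      (if a = b then 1 else 0) * (e c * pd c (fun y => lph e l V y * l c y) x) +
      (if c = b then 1 else 0) * (e a * pd c (fun y => lph e l V y * l a y) x)) * (1 / 2)) x := by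
  have h1 : ∀ y ∈ U, UL e l V a c b y =
      (e a * e c * (pd a (hl l V c b) y - pd c (hl l V a b) y) -
        (if a = b then 1 else 0) * (e c * (lph e l V y * l c y)) +
        (if c = b then 1 else 0) * (e a * (lph e l V y * l a y))) * (1 / 2) := by
    intro y hy
    have h2 : ∀ c, ∑ d, e c * e d * pd d (hl l V c d) y = e c * (lph e l V y * l c y) := by
      intro c
      rw [← h.div_hl hy c, Finset.mul_sum]
      exact Finset.sum_congr rfl fun d _ => by ring
    have h3 : ∑ d, e a * e d * pd d (hl l V a d) y = e a * (lph e l V y * l a y) := by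
      rw [← h.div_hl hy a, Finset.mul_sum]
      exact Finset.sum_congr rfl fun d _ => by ring
    unfold UL
    rw [h2, h3]
    split_ifs <;> ring
  have s1 : ∀ d, HP c (fun y => lph e l V y * l d y)
      (pd c (fun y => lph e l V y * l d y) x) x := fun d =>
    ((h.sph.mul (h.sl0 d) : CU U _).hp hx c)
  have s2 : ∀ a c' b, HP c (pd a (hl l V c' b)) (pd c (pd a (hl l V c' b)) x) x :=
    fun a c' b => (h.shl1 a c' b).hp hx c
  have h4 : HP c (fun y => (e a * e c * (pd a (hl l V c b) y - pd c (hl l V a b) y) -
        (if a = b then 1 else 0) * (e c * (lph e l V y * l c y)) +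
        (if c = b then 1 else 0) * (e a * (lph e l V y * l a y))) * (1 / 2)) _ x :=
    ((((((s2 a c b).sub (s2 c a b)).const_mul (e a * e c)).sub
      (((s1 c).const_mul (e c)).const_mul (if a = b then 1 else 0))).add
      (((s1 a).const_mul (e a)).const_mul (if c = b then 1 else 0))).mul (HP.const c (1 / 2) x))
  have h5 := hp_congrU h.op hx h1 h4
  convert h5 using 1
  ring

lemma UL_diff {x : E m} (hx : x ∈ U) (a c b : Fin m) : DifferentiableAt ℝ (UL e l V a c b) x := by
  have s : ∀ a c b, DifferentiableAt ℝ (pd a (hl l V c b)) x := fun a c b =>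
    (h.shl1 a c b).diff hx
  have t : ∀ c b : Fin m, DifferentiableAt ℝ (fun y => if c = b then ∑ d, e a * e d * pd d (hl l V a d) y
      else 0) x := by
    intro c b
    by_cases hcb : c = b
    · simp only [if_pos hcb]
      exact DifferentiableAt.fun_sum fun d _ => (s d a d).const_mul _
    · simp only [if_neg hcb]; exact differentiableAt_const _
  have t' : DifferentiableAt ℝ (fun y => if a = b then ∑ d, e c * e d * pd d (hl l V c d) y
      else 0) x := by
    by_cases hab : a = b
    · simp only [if_pos hab]
      exact DifferentiableAt.fun_sum fun d _ => (s d c d).const_mul _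
    · simp only [if_neg hab]; exact differentiableAt_const _
  have r := ((((s a c b).sub (s c a b)).const_mul (e a * e c)).sub t').add (t c b)
  have r2 := r.const_mul (1 / 2 : ℝ)
  refine r2.congr_of_eventuallyEq (Eventually.of_forall fun y => ?_)
  simp only [Pi.add_apply, Pi.sub_apply]
  unfold UL
  ring

/-- **(a) The superpotential identity** `G^a_b = ∂_c U^{ac}_b`. -/
theorem superpot {x : E m} (hx : x ∈ U) (a b : Fin m) :
    einM g a b x = ∑ c, pd c (UL e l V a c b) x := by
  have h1 : ∑ c, pd c (UL e l V a c b) x =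
      e a * (pd a (fun y => lph e l V y * l b y) x - ∑ c, e c * pd c (pd c (hl l V a b)) x) / 2 -
      (if a = b then 1 else 0) * scal g x / 2 +
      e a * pd b (fun y => lph e l V y * l a y) x / 2 := by
    have e1 : ∀ c, pd c (UL e l V a c b) x =
        (e a / 2) * (e c * pd c (pd a (hl l V c b)) x) -
        (e a / 2) * (e c * pd c (pd c (hl l V a b)) x) -
        ((if a = b then 1 else 0) / 2) * (e c * pd c (fun y => lph e l V y * l c y) x) +
        (if c = b then e a * pd b (fun y => lph e l V y * l a y) x / 2 else 0) := by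
      intro c
      rw [(h.hp_UL hx a c b).pd]
      by_cases hcb : c = b
      · subst hcb
        simp only [if_true]
        ring
      · simp only [if_neg hcb]
        ring
    simp only [e1, Finset.sum_add_distrib, Finset.sum_sub_distrib, ← Finset.mul_sum, h.div2 hx,
      ← h.scal_eq' hx, Finset.sum_ite_eq', Finset.mem_univ, if_true]
    ring
  rw [h1, h.einM_eq hx, h.Rl_eq hx]
  ring

end KLg

end Vale.Agent.P366.H896
end
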